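import Vale.Agent.P190.Hull

/-!
Elements acting on a finite extension through free modules act so on its hull, and are transported
by automorphisms of the base.
-/

namespace Vale.Agent.P190

variable {A : Type*} [CommRing A] [IsDomain A] [UniqueFactorizationMonoid A] [IsNoetherianRing A]
  {R : Type*} [CommRing R] [IsDomain R] [Algebra A R] [FaithfulSMul A R] [Module.Finite A R]

omit [IsNoetherianRing A] in
/-- A functional on `R` extends to the hull. -/
theorem exists_hull_functional (φ : R →ₗ[A] A) :
    ∃ Φ : hull A R →ₗ[A] A, ∀ (ξ : hull A R) (a : A) (w : R),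
      algebraMap R (FractionRing R) (algebraMap A R a) * ξ.1 = algebraMap R (FractionRing R) w →
        φ w = a * Φ ξ := by
  classical
  set iR := algebraMap R (FractionRing R)
  have hiR : Function.Injective iR := IsFractionRing.injective R _
  have hAR : Function.Injective (algebraMap A R) := FaithfulSMul.algebraMap_injective A R
  have hden : ∀ ξ : FractionRing R, ∃ (b : A) (u : R), b ≠ 0 ∧ iR (algebraMap A R b) * ξ = iR u := by
    intro ξ
    obtain ⟨x, s, hs, rfl⟩ := IsFractionRing.div_surjective (A := R) ξ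
    have hs0 : s ≠ 0 := nonZeroDivisors.ne_zero hs
    obtain ⟨b, hb, hdvd⟩ := (Algebra.IsAlgebraic.isAlgebraic (R := A) s).exists_nonzero_dvd hs
    obtain ⟨c, hc⟩ := hdvd
    refine ⟨b, c * x, hb, ?_⟩
    rw [hc, map_mul, map_mul, mul_comm (iR s), mul_assoc,
      mul_div_cancel₀ _ fun h => hs0 (hiR (by rw [h, map_zero]))]
  have key : ∀ ξ : hull A R, ∃ c : A, ∀ (a : A) (w : R),
      iR (algebraMap A R a) * ξ.1 = iR w → φ w = a * c := by
    intro ξ
    obtain ⟨b, u, hb, hu⟩ := hden ξ.1
    have hcomm : ∀ (a : A) (w : R), iR (algebraMap A R a) * ξ.1 = iR w → a * φ u = b * φ w := by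
      intro a w hw
      have h : algebraMap A R a * u = algebraMap A R b * w := hiR (by
        rw [map_mul, map_mul, ← hu, ← hw]; ring)
      have h2 := congrArg φ h
      rwa [← Algebra.smul_def, ← Algebra.smul_def, map_smul, map_smul] at h2
    let I : Ideal A :=
      { carrier := {a | ∃ w, iR (algebraMap A R a) * ξ.1 = iR w}
        add_mem' := by
          rintro a a' ⟨w, hw⟩ ⟨w', hw'⟩
          exact ⟨w + w', by simp only [map_add, add_mul, hw, hw']⟩
        zero_mem' := ⟨0, by simp⟩
        smul_mem' := by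
          rintro c a ⟨w, hw⟩
          exact ⟨algebraMap A R c * w, by simp only [smul_eq_mul, map_mul, mul_assoc, hw]⟩ }
    have hI : ∀ π : A, Prime π → ∃ a ∈ I, ¬ π ∣ a := by
      intro π hπ
      obtain ⟨a, ha, w, hw⟩ := ξ.2 π hπ
      exact ⟨a, ⟨w, hw.symm⟩, ha⟩
    obtain ⟨c, hc⟩ := dvd_of_forall_mul hI b hb (φ u) (by
      rintro a ⟨w, hw⟩
      exact ⟨φ w, hcomm a w hw⟩)
    refine ⟨c, fun a w hw => mul_left_cancel₀ hb ?_⟩
    rw [← hcomm a w hw, hc]; ring
  choose Φ hΦ using key
  have huniq : ∀ (ξ : hull A R) (c : A), (∃ b u, b ≠ 0 ∧ iR (algebraMap A R b) * ξ.1 = iR u ∧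
      φ u = b * c) → Φ ξ = c := by
    rintro ξ c ⟨b, u, hb, hu, hc⟩
    exact mul_left_cancel₀ hb ((hΦ ξ b u hu).symm.trans hc)
  refine ⟨{ toFun := Φ, map_add' := fun ξ η => ?_, map_smul' := fun a ξ => ?_ }, hΦ⟩
  · obtain ⟨b, u, hb, hu⟩ := hden ξ.1
    obtain ⟨b', u', hb', hu'⟩ := hden η.1
    refine huniq _ _ ⟨b * b', b' • u + b • u', mul_ne_zero hb hb', ?_, ?_⟩
    · show _ * (ξ.1 + η.1) = _
      simp only [Algebra.smul_def, map_add, map_mul, ← hu, ← hu']
      ring
    · rw [map_add, map_smul, map_smul, hΦ ξ b u hu, hΦ η b' u' hu', smul_eq_mul, smul_eq_mul]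
      ring
  · obtain ⟨b, u, hb, hu⟩ := hden ξ.1
    refine huniq _ _ ⟨b, a • u, hb, ?_, ?_⟩
    · show _ * (a • ξ.1) = _
      rw [Algebra.smul_def a u, map_mul, ← hu, Algebra.smul_def,
        IsScalarTower.algebraMap_apply A R (FractionRing R)]
      ring
    · rw [map_smul, hΦ ξ b u hu, RingHom.id_apply, smul_eq_mul, smul_eq_mul]
      ring

omit [IsNoetherianRing A] in
/-- What acts on `R` through a free module acts so on the hull. -/
theorem factorIdeal_le_factorIdeal_hull : factorIdeal A R ≤ factorIdeal A (hull A R) := by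
  classical
  intro t ht
  obtain ⟨n, s, π', h⟩ := factors_of_mem ht
  have hsum : ∀ v : R, ∑ i, s v i • π' (Pi.single i 1) = t • v := by
    intro v
    have h1 := LinearMap.congr_fun h v
    simp only [LinearMap.comp_apply, LinearMap.smul_apply, LinearMap.id_apply] at h1
    rw [← h1]
    conv_rhs => rw [pi_eq_sum_univ (s v), map_sum]
    refine Finset.sum_congr rfl fun i _ => ?_
    rw [map_smul]
    congr 2
    funext j
    simp [Pi.single_apply, eq_comm]
  choose Φ hΦ using fun i => exists_hull_functional (A := A) ((LinearMap.proj i).comp s)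
  refine mem_factorIdeal Φ (fun i => algebraMap R (hull A R) (π' (Pi.single i 1))) fun ξ => ?_
  set iR := algebraMap R (FractionRing R)
  have hiR : Function.Injective iR := IsFractionRing.injective R _
  obtain ⟨x, v, hv, he⟩ := IsFractionRing.div_surjective (A := R) ξ.1
  obtain ⟨b, hb, c, hc⟩ := (Algebra.IsAlgebraic.isAlgebraic (R := A) v).exists_nonzero_dvd hv
  have hv0 : iR v ≠ 0 := fun h => nonZeroDivisors.ne_zero hv (hiR (by rw [h, map_zero]))
  have hu : iR (algebraMap A R b) * ξ.1 = iR (c * x) := by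
    rw [← he, hc, map_mul, map_mul, mul_comm (iR v), mul_assoc, mul_div_cancel₀ _ hv0]
  refine Subtype.ext (mul_left_cancel₀ (a := iR (algebraMap A R b)) (fun h =>
    hb (FaithfulSMul.algebraMap_injective A R (hiR (by rw [h, map_zero, map_zero])))) ?_)
  have key := congrArg iR (hsum (c * x))
  simp only [Algebra.smul_def, map_sum, map_mul] at key
  rw [AddSubmonoidClass.coe_finsetSum, Finset.mul_sum]
  calc ∑ i, iR (algebraMap A R b) * ((Φ i ξ • algebraMap R (hull A R) (π' (Pi.single i 1)) :
        hull A R) : FractionRing R) =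
      ∑ i, iR (algebraMap A R (s (c * x) i)) * iR (π' (Pi.single i 1)) := by
        refine Finset.sum_congr rfl fun i _ => ?_
        have h2 : s (c * x) i = b * Φ i ξ := hΦ i ξ b (c * x) hu
        rw [h2, map_mul, map_mul, Algebra.smul_def, MulMemClass.coe_mul, mul_assoc]
        rfl
    _ = iR (algebraMap A R t) * (iR c * iR x) := key
    _ = iR (algebraMap A R b) * ((t • ξ : hull A R) : FractionRing R) := by
        rw [Algebra.smul_def, MulMemClass.coe_mul, ← map_mul, ← hu]
        show _ = _ * (iR (algebraMap A R t) * _)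
        ring

/-- An element acting through a free module, unfolded. -/
theorem exists_coeff_of_mem {A R : Type*} [CommRing A] [CommRing R] [Algebra A R] {t : A}
    (ht : t ∈ factorIdeal A R) :
    ∃ (n : ℕ) (s : Fin n → R →+ A) (m : Fin n → R),
      (∀ i a v, s i (algebraMap A R a * v) = a * s i v) ∧
      ∀ v, ∑ i, algebraMap A R (s i v) * m i = algebraMap A R t * v := by
  classical
  obtain ⟨n, s, π', hs⟩ := factors_of_mem ht
  refine ⟨n, fun i => ((LinearMap.proj i).comp s).toAddMonoidHom, fun i => π' (Pi.single i 1),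
    fun i a v => ?_, fun v => ?_⟩
  · simp [← Algebra.smul_def]
  · have h1 := LinearMap.congr_fun hs v
    simp only [LinearMap.comp_apply, LinearMap.smul_apply, LinearMap.id_apply] at h1
    simp only [← Algebra.smul_def]
    rw [← h1]
    conv_rhs => rw [pi_eq_sum_univ (s v), map_sum]
    refine Finset.sum_congr rfl fun i _ => ?_
    rw [map_smul]
    congr 2
    funext j
    simp [Pi.single_apply, eq_comm]

/-- Changing coordinates on the base transports the ideal of elements acting through free
modules. -/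
theorem mem_factorIdeal_of_equiv {A R : Type*} [CommRing A] [CommRing R] (e : A ≃+* A)
    (f1 f2 : A →+* R) (h : ∀ a, f2 a = f1 (e a)) (t : A)
    (ht : t ∈ @factorIdeal A R _ _ f1.toAlgebra.toModule) :
    e.symm t ∈ @factorIdeal A R _ _ f2.toAlgebra.toModule := by
  obtain ⟨n, s, m, hlin, hsum⟩ := @exists_coeff_of_mem A R _ _ f1.toAlgebra t ht
  let _ := f2.toAlgebra
  let φ : Fin n → (R →ₗ[A] A) := fun i =>
    { toFun := fun v => e.symm (s i v)
      map_add' := fun v w => by rw [map_add, map_add]
      map_smul' := fun a v => by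
        have h1 : s i (f1 (e a) * v) = e a * s i v := hlin i (e a) v
        rw [Algebra.smul_def, RingHom.algebraMap_toAlgebra, h, h1, map_mul, RingHom.id_apply,
          RingEquiv.symm_apply_apply, smul_eq_mul] }
  refine mem_factorIdeal φ m fun v => ?_
  simp only [Algebra.smul_def, RingHom.algebraMap_toAlgebra, h]
  show ∑ i, f1 (e (e.symm (s i v))) * m i = _
  simp only [RingEquiv.apply_symm_apply]
  exact hsum v

end Vale.Agent.P190
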