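import Vale.Agent.P190.Coord

/-!
Adapted coordinates for an ideal of a polynomial ring over a field.
-/

namespace Vale.Agent.P190

open MvPolynomial

variable {k : Type*} [Field k] {n : ℕ}

theorem toRingEquiv_apply {R A B : Type*} [CommSemiring R] [Semiring A] [Semiring B] [Algebra R A]
    [Algebra R B] (e : A ≃ₐ[R] B) (x : A) : e.toRingEquiv x = e x := rfl

section Shear

variable (b : ℕ)

/-- Shear `X i ↦ X i + c X₀ ^ (b ^ i)`. -/
noncomputable def shear1 (c : k) :
    MvPolynomial (Fin (n + 1)) k →ₐ[k] MvPolynomial (Fin (n + 1)) k :=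
  aeval fun i => if i = 0 then X 0 else X i + c • X 0 ^ (b ^ (i : ℕ))

theorem shear1_comp (c : k) :
    (shear1 (n := n) b c).comp (shear1 b (-c)) = AlgHom.id _ _ := by
  rw [shear1, shear1, comp_aeval, ← MvPolynomial.aeval_X_left]
  ext i v
  cases i using Fin.cases <;> simp

/-- The shear as an automorphism. -/
noncomputable def shear :
    MvPolynomial (Fin (n + 1)) k ≃ₐ[k] MvPolynomial (Fin (n + 1)) k :=
  AlgEquiv.ofAlgHom (shear1 b 1) (shear1 b (-1)) (shear1_comp b 1)
    (by simpa using shear1_comp (n := n) b (-1 : k))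

theorem finSuccEquiv_shear_monomial (v : Fin (n + 1) →₀ ℕ) (a : k) :
    finSuccEquiv k n (shear b (monomial v a)) = Polynomial.C (C a) * (Polynomial.X ^ v 0 *
      ∏ i : Fin n, (Polynomial.C (X i) + Polynomial.X ^ (b ^ ((i : ℕ) + 1))) ^ v i.succ) := by
  rw [monomial_eq, Finsupp.prod_pow v fun i => X i, Fin.prod_univ_succ]
  simp only [shear, AlgEquiv.ofAlgHom_apply, shear1, map_mul, map_prod, map_pow, aeval_C, aeval_X,
    if_pos, Fin.succ_ne_zero, if_false, one_smul, map_add, finSuccEquiv_X_zero,
    finSuccEquiv_X_succ, algebraMap_eq, Fin.val_succ]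
  congr 1
  simp [finSuccEquiv_apply]

/-- The degree in `X₀` of a sheared monomial. -/
noncomputable def shearDeg (v : Fin (n + 1) →₀ ℕ) : ℕ :=
  ∑ i : Fin (n + 1), b ^ (i : ℕ) * v i

theorem shear_monomial (hb : 0 < b) (v : Fin (n + 1) →₀ ℕ) {a : k} (ha : a ≠ 0) :
    (finSuccEquiv k n (shear b (monomial v a))).natDegree = shearDeg b v ∧
      (finSuccEquiv k n (shear b (monomial v a))).leadingCoeff = C a := by
  have hm : ∀ i : Fin n, ((Polynomial.C (X i : MvPolynomial (Fin n) k) +
      Polynomial.X ^ (b ^ ((i : ℕ) + 1))) ^ v i.succ).Monic := by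
    intro i
    refine Polynomial.Monic.pow ?_ _
    rw [add_comm]
    exact Polynomial.monic_X_pow_add_C _ (pow_ne_zero _ hb.ne')
  have hmp := Polynomial.monic_prod_of_monic Finset.univ _ (fun i _ => hm i)
  have hmq := (Polynomial.monic_X_pow (R := MvPolynomial (Fin n) k) (v 0)).mul hmp
  constructor
  · rw [shearDeg, finSuccEquiv_shear_monomial, Polynomial.natDegree_C_mul (by simp [ha]),
      (Polynomial.monic_X_pow _).natDegree_mul hmp, Polynomial.natDegree_X_pow,
      Polynomial.natDegree_prod_of_monic _ _ (fun i _ => hm i), Fin.sum_univ_succ]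
    simp only [Fin.val_zero, pow_zero, one_mul, Fin.val_succ, add_right_inj]
    refine Finset.sum_congr rfl fun i _ => ?_
    rw [Polynomial.natDegree_pow, add_comm (Polynomial.C _), Polynomial.natDegree_X_pow_add_C,
      mul_comm]
  · rw [finSuccEquiv_shear_monomial, Polynomial.leadingCoeff_mul, Polynomial.leadingCoeff_C,
      hmq.leadingCoeff, mul_one]

theorem shearDeg_injOn {v w : Fin (n + 1) →₀ ℕ} (hv : ∀ i, v i < b) (hw : ∀ i, w i < b)
    (h : shearDeg b v = shearDeg b w) : v = w := by
  have h2 : finFunctionFinEquiv (fun i => (⟨v i, hv i⟩ : Fin b)) =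
      finFunctionFinEquiv (fun i => (⟨w i, hw i⟩ : Fin b)) := by
    apply Fin.ext
    simp only [finFunctionFinEquiv_apply]
    simpa [shearDeg, mul_comm] using h
  ext i
  exact congrArg Fin.val (congrFun (finFunctionFinEquiv.injective h2) i)

theorem constantCoeff_comp_shear (hb : 0 < b) (f : MvPolynomial (Fin (n + 1)) k) :
    constantCoeff (shear b f) = constantCoeff f := by
  have h : ((constantCoeff : MvPolynomial (Fin (n + 1)) k →+* k).comp
      ((shear (k := k) (n := n) b).toRingEquiv : MvPolynomial (Fin (n + 1)) k →+* MvPolynomial (Fin (n + 1)) k)) = constantCoeff := by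
    apply MvPolynomial.ringHom_ext
    · intro r
      simp [shear, shear1]
    · intro i
      cases i using Fin.cases <;> simp [shear, shear1, zero_pow (pow_ne_zero _ hb.ne')]
  exact RingHom.congr_fun h f

end Shear

/-- A nonzero polynomial without constant term becomes, after a shear and scaling, monic of
positive degree in the first variable. -/
theorem exists_shear_monic (f : MvPolynomial (Fin (n + 1)) k) (hf : f ≠ 0)
    (hf0 : constantCoeff f = 0) :
    ∃ (b : ℕ) (c : k), 0 < b ∧ (finSuccEquiv k n (C c * shear b f)).Monic ∧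
      finSuccEquiv k n (C c * shear b f) ≠ 1 := by
  classical
  refine ⟨f.totalDegree + 1, ?_⟩
  set b := f.totalDegree + 1 with hbdef
  have hb : 0 < b := Nat.succ_pos _
  have hlt : ∀ v ∈ f.support, ∀ i, v i < b := fun v hv i =>
    Nat.lt_succ_of_le (((le_degreeOf_of_mem_support i hv)).trans (degreeOf_le_totalDegree f i))
  have hne : f.support.Nonempty := MvPolynomial.support_nonempty.mpr hf
  obtain ⟨v0, hv0, hmax⟩ := Finset.exists_max_image f.support (shearDeg b) hne
  have ha : coeff v0 f ≠ 0 := MvPolynomial.mem_support_iff.mp hv0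
  refine ⟨(coeff v0 f)⁻¹, hb, ?_⟩
  set T : (Fin (n + 1) →₀ ℕ) → Polynomial (MvPolynomial (Fin n) k) :=
    fun v => finSuccEquiv k n (shear b (monomial v (coeff v f))) with hT
  have hF : finSuccEquiv k n (shear b f) = T v0 + ∑ v ∈ f.support.erase v0, T v := by
    conv_lhs => rw [f.as_sum]
    rw [map_sum, map_sum, ← Finset.add_sum_erase _ _ hv0]
  obtain ⟨hdeg, hlc⟩ := shear_monomial b hb v0 ha
  have h0 : T v0 ≠ 0 := by
    intro h
    rw [show finSuccEquiv k n (shear b (monomial v0 (coeff v0 f))) = 0 from h,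
      Polynomial.leadingCoeff_zero] at hlc
    exact ha (by simpa using hlc.symm)
  have hsmall : (∑ v ∈ f.support.erase v0, T v).degree < (T v0).degree := by
    refine lt_of_le_of_lt (Polynomial.degree_sum_le _ _) ((Finset.sup_lt_iff ?_).mpr fun v hv => ?_)
    · exact bot_lt_iff_ne_bot.mpr (mt Polynomial.degree_eq_bot.mp h0)
    · obtain ⟨hvne, hv⟩ := Finset.mem_erase.mp hv
      refine lt_of_le_of_lt Polynomial.degree_le_natDegree ?_
      rw [Polynomial.degree_eq_natDegree h0]
      simp only [hT, (shear_monomial b hb v (MvPolynomial.mem_support_iff.mp hv)).1, hdeg]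
      exact_mod_cast lt_of_le_of_ne (hmax v hv)
        fun h => hvne (shearDeg_injOn b (hlt v hv) (hlt v0 hv0) h)
  have hFdeg : (finSuccEquiv k n (shear b f)).natDegree = shearDeg b v0 := by
    rw [hF, Polynomial.natDegree_add_eq_left_of_degree_lt hsmall]
    exact hdeg
  have hFlc : (finSuccEquiv k n (shear b f)).leadingCoeff = C (coeff v0 f) := by
    rw [hF, Polynomial.leadingCoeff_add_of_degree_lt' hsmall]
    exact hlc
  have hpos : 0 < shearDeg b v0 := by
    by_contra h
    have h0' : ∀ i, v0 i = 0 := by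
      intro i
      have := Finset.single_le_sum (f := fun i : Fin (n + 1) => b ^ (i : ℕ) * v0 i)
        (fun _ _ => Nat.zero_le _) (Finset.mem_univ i)
      have hp : 0 < b ^ (i : ℕ) := pow_pos hb _
      simp only [shearDeg] at h
      nlinarith
    have : v0 = 0 := Finsupp.ext h0'
    subst this
    exact ha hf0
  have hscale : finSuccEquiv k n (C (coeff v0 f)⁻¹ * shear b f) =
      Polynomial.C (C (coeff v0 f)⁻¹) * finSuccEquiv k n (shear b f) := by
    rw [map_mul]
    congr 1
    simp [finSuccEquiv_apply]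
  rw [hscale]
  have hmonic : (Polynomial.C (C (coeff v0 f)⁻¹ : MvPolynomial (Fin n) k) *
      finSuccEquiv k n (shear b f)).Monic := by
    refine Polynomial.monic_C_mul_of_mul_leadingCoeff_eq_one ?_
    rw [hFlc, ← C.map_mul, inv_mul_cancel₀ ha, C.map_one]
  refine ⟨hmonic, fun h => ?_⟩
  have := congrArg Polynomial.natDegree h
  rw [Polynomial.natDegree_C_mul (by simp [ha]), hFdeg, Polynomial.natDegree_one] at this
  omega

section Ideal

variable {A : Type*} [CommRing A]

theorem mem_iff_coeff_zero_mem {J : Ideal (Polynomial A)} (hX : Polynomial.X ∈ J)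
    (q : Polynomial A) : q ∈ J ↔ q.coeff 0 ∈ J.comap Polynomial.C := by
  rw [Ideal.mem_comap]
  conv_lhs => rw [← Polynomial.X_mul_divX_add q]
  exact Ideal.add_mem_iff_right _ (Ideal.mul_mem_right _ _ hX)

theorem span_X_succ (S : Finset (Fin n)) :
    Ideal.span ((X : _ → MvPolynomial (Fin (n + 1)) k) '' insert 0 (Fin.succ '' (S : Set (Fin n)))) =
      Ideal.comap ((finSuccEquiv k n).toRingEquiv :
          MvPolynomial (Fin (n + 1)) k →+* Polynomial (MvPolynomial (Fin n) k))
        (Ideal.comap (Polynomial.evalRingHom (0 : MvPolynomial (Fin n) k))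
          (Ideal.span (X '' (S : Set (Fin n))))) := by
  apply le_antisymm
  · rw [Ideal.span_le]
    rintro _ ⟨i, hi, rfl⟩
    simp only [SetLike.mem_coe, Ideal.mem_comap, RingHom.coe_coe, toRingEquiv_apply, Polynomial.coe_evalRingHom]
    rcases hi with rfl | ⟨j, hj, rfl⟩
    · simp [finSuccEquiv_X_zero]
    · simp only [finSuccEquiv_X_succ, Polynomial.eval_C]
      exact Ideal.subset_span ⟨j, hj, rfl⟩
  · intro g hg
    simp only [Ideal.mem_comap, RingHom.coe_coe, toRingEquiv_apply, Polynomial.coe_evalRingHom,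
      ← Polynomial.coeff_zero_eq_eval_zero] at hg
    set I := Ideal.span ((X : _ → MvPolynomial (Fin (n + 1)) k) ''
      insert 0 (Fin.succ '' (S : Set (Fin n))))
    have key : finSuccEquiv k n g ∈ I.comap ((finSuccEquiv k n).symm.toRingEquiv :
        Polynomial (MvPolynomial (Fin n) k) →+* MvPolynomial (Fin (n + 1)) k) := by
      set J := I.comap ((finSuccEquiv k n).symm.toRingEquiv :
        Polynomial (MvPolynomial (Fin n) k) →+* MvPolynomial (Fin (n + 1)) k)
      have hX : Polynomial.X ∈ J := by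
        refine Ideal.mem_comap.mpr (Ideal.subset_span ⟨0, Or.inl rfl, ?_⟩)
        simp only [RingHom.coe_coe, toRingEquiv_apply]
        rw [AlgEquiv.eq_symm_apply]
        exact finSuccEquiv_X_zero
      have hle : Ideal.span (X '' (S : Set (Fin n))) ≤ J.comap Polynomial.C := by
        rw [Ideal.span_le]
        rintro _ ⟨j, hj, rfl⟩
        refine Ideal.mem_comap.mpr (Ideal.subset_span ⟨j.succ, Or.inr ⟨j, hj, rfl⟩, ?_⟩)
        simp only [RingHom.coe_coe, toRingEquiv_apply]
        rw [AlgEquiv.eq_symm_apply]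
        exact finSuccEquiv_X_succ
      exact (mem_iff_coeff_zero_mem hX _).mpr (hle hg)
    simpa using key

end Ideal

theorem constantCoeff_coeff_zero (g : MvPolynomial (Fin (n + 1)) k) :
    constantCoeff ((finSuccEquiv k n g).coeff 0) = constantCoeff g := by
  rw [constantCoeff_eq, constantCoeff_eq, finSuccEquiv_coeff_coeff]
  congr 1
  ext i
  cases i using Fin.cases <;> simp

/-- One step: a free hom from a polynomial ring in one more variable sending it into `J`. -/
theorem exists_step (J : Ideal (MvPolynomial (Fin (n + 1)) k))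
    (hJ : ∀ f ∈ J, constantCoeff f = 0) (h0 : J ≠ ⊥) :
    ∃ θ : Polynomial (MvPolynomial (Fin n) k) →+* MvPolynomial (Fin (n + 1)) k,
      FreeHom θ ∧ (∀ a : k, θ (Polynomial.C (C a)) = C a) ∧ θ Polynomial.X ∈ J ∧
      ∀ q, constantCoeff (θ q) = constantCoeff (q.coeff 0) := by
  obtain ⟨f, hfJ, hf⟩ := Submodule.exists_mem_ne_zero_of_ne_bot h0
  obtain ⟨b, c, hb, hmonic, hne⟩ := exists_shear_monic f hf (hJ f hfJ)
  set P := finSuccEquiv k n (C c * shear b f) with hP
  let φ' : MvPolynomial (Fin (n + 1)) k →+* MvPolynomial (Fin (n + 1)) k :=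
    ((shear b).symm.toRingEquiv : MvPolynomial (Fin (n + 1)) k ≃+* MvPolynomial (Fin (n + 1)) k)
  let e' : Polynomial (MvPolynomial (Fin n) k) →+* MvPolynomial (Fin (n + 1)) k :=
    ((finSuccEquiv k n).symm.toRingEquiv :
      Polynomial (MvPolynomial (Fin n) k) ≃+* MvPolynomial (Fin (n + 1)) k)
  have hθ : ∀ q, (φ'.comp (e'.comp (Polynomial.compRingHom P))) q =
      (shear b).symm ((finSuccEquiv k n).symm (q.comp P)) := fun q => rfl
  have hC : ∀ a : k, finSuccEquiv k n (C a) = Polynomial.C (C a) := fun a => by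
    simp [finSuccEquiv_apply]
  have hcc : ∀ g : MvPolynomial (Fin (n + 1)) k,
      constantCoeff ((shear b).symm g) = constantCoeff g := fun g => by
    conv_rhs => rw [← (shear b).apply_symm_apply g]
    rw [constantCoeff_comp_shear (k := k) b hb]
  have hP0 : constantCoeff (P.coeff 0) = 0 := by
    rw [hP, constantCoeff_coeff_zero, map_mul, constantCoeff_comp_shear b hb, hJ f hfJ, mul_zero]
  refine ⟨φ'.comp (e'.comp (Polynomial.compRingHom P)), ?_, ?_, ?_, ?_⟩
  · have h1 : FreeHom φ' := FreeHom.of_equiv (shear b).symm.toRingEquiv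
    have h2 : FreeHom e' := FreeHom.of_equiv (finSuccEquiv k n).symm.toRingEquiv
    have h3 : FreeHom (Polynomial.compRingHom P) := FreeHom.compMonic P hmonic hne
    clear_value φ' e' P
    exact h1.comp (h2.comp h3)
  · intro a
    rw [hθ, Polynomial.C_comp, ← hC, AlgEquiv.symm_apply_apply, ← algebraMap_eq,
      AlgEquiv.commutes]
  · rw [hθ, Polynomial.X_comp, hP, AlgEquiv.symm_apply_apply, map_mul,
      AlgEquiv.symm_apply_apply]
    exact Ideal.mul_mem_left _ _ hfJ
  · intro q
    rw [hθ, hcc, ← constantCoeff_coeff_zero, AlgEquiv.apply_symm_apply,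
      Polynomial.coeff_zero_eq_eval_zero, Polynomial.eval_comp,
      ← Polynomial.coeff_zero_eq_eval_zero, ← Polynomial.eval₂_hom, hP0,
      Polynomial.eval₂_at_zero]

/-- Adapted coordinates. -/
theorem exists_coordinates : ∀ (d : ℕ) (J : Ideal (MvPolynomial (Fin d) k)),
    (∀ f ∈ J, constantCoeff f = 0) →
    ∃ (ψ : MvPolynomial (Fin d) k →ₐ[k] MvPolynomial (Fin d) k) (S : Finset (Fin d)),
      FreeHom (ψ : MvPolynomial (Fin d) k →+* MvPolynomial (Fin d) k) ∧
      (∀ f, constantCoeff (ψ f) = constantCoeff f) ∧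
      J.comap ψ = Ideal.span (X '' (S : Set (Fin d))) := by
  intro d
  induction d with
  | zero =>
    intro J hJ
    refine ⟨AlgHom.id k _, ∅, FreeHom.of_equiv (RingEquiv.refl _), fun f => rfl, ?_⟩
    rw [show ((∅ : Finset (Fin 0)) : Set (Fin 0)) = ∅ from Finset.coe_empty, Set.image_empty,
      Ideal.span_empty, eq_bot_iff]
    intro f hf
    rw [Submodule.mem_bot, eq_C_of_isEmpty f]
    rw [← constantCoeff_eq, hJ f (by simpa using hf), map_zero]
  | succ n ih =>
    intro J hJ
    classical
    by_cases h0 : J = ⊥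
    · refine ⟨AlgHom.id k _, ∅, FreeHom.of_equiv (RingEquiv.refl _), fun f => rfl, ?_⟩
      simp only [Finset.coe_empty, Set.image_empty, Ideal.span_empty, h0]
      rfl
    obtain ⟨θ, hθ, hθC, hθX, hθcc⟩ := exists_step J hJ h0
    obtain ⟨ψ', S', hψ', hψ'cc, hJ2⟩ := ih ((J.comap θ).comap Polynomial.C) (by
      intro g hg
      have h := hJ _ (Ideal.mem_comap.mp (Ideal.mem_comap.mp hg))
      rwa [hθcc, Polynomial.coeff_C_zero] at h)
    let g2 : Polynomial (MvPolynomial (Fin n) k) →+* MvPolynomial (Fin (n + 1)) k :=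
      θ.comp (Polynomial.mapRingHom (ψ' : MvPolynomial (Fin n) k →+* MvPolynomial (Fin n) k))
    let ψr : MvPolynomial (Fin (n + 1)) k →+* MvPolynomial (Fin (n + 1)) k :=
      g2.comp ((finSuccEquiv k n).toRingEquiv :
        MvPolynomial (Fin (n + 1)) k ≃+* Polynomial (MvPolynomial (Fin n) k)).toRingHom
    have hψr : ∀ q, ψr q = θ ((finSuccEquiv k n q).map
        (ψ' : MvPolynomial (Fin n) k →+* MvPolynomial (Fin n) k)) := fun q => rfl
    have hψC : ∀ r : k, ψr (C r) = C r := fun r => by
      have : finSuccEquiv k n (C r) = Polynomial.C (C r) := by simp [finSuccEquiv_apply]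
      rw [hψr, this, Polynomial.map_C, RingHom.coe_coe, ← algebraMap_eq, AlgHom.commutes,
        algebraMap_eq, hθC]
    refine ⟨{ ψr with commutes' := hψC }, insert 0 (S'.image Fin.succ), ?_, ?_, ?_⟩
    · show FreeHom ψr
      exact (hθ.comp (FreeHom.mapPoly hψ')).comp
        (FreeHom.of_equiv (finSuccEquiv k n).toRingEquiv)
    · intro q
      show constantCoeff (ψr q) = _
      rw [hψr, hθcc, Polynomial.coeff_map, RingHom.coe_coe, hψ'cc, constantCoeff_coeff_zero]
    · rw [Finset.coe_insert, Finset.coe_image, span_X_succ]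
      ext q
      show ψr q ∈ J ↔ _
      rw [hψr, ← Ideal.mem_comap (f := θ), mem_iff_coeff_zero_mem (Ideal.mem_comap.mpr hθX),
        Polynomial.coeff_map, ← hJ2]
      simp only [Ideal.mem_comap, Polynomial.coe_evalRingHom, RingHom.coe_coe,
        ← Polynomial.coeff_zero_eq_eval_zero, toRingEquiv_apply]

/-- The prime cut out by the coordinates. -/
theorem isPrime_span_X {σ : Type*} (S : Set σ) :
    (Ideal.span ((X : σ → MvPolynomial σ k) '' S)).IsPrime := by
  classical
  have h : Ideal.span ((X : σ → MvPolynomial σ k) '' S) =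
      RingHom.ker (aeval (fun i => if i ∈ S then 0 else X i) :
        MvPolynomial σ k →ₐ[k] MvPolynomial σ k) := by
    apply le_antisymm
    · rw [Ideal.span_le]
      rintro _ ⟨i, hi, rfl⟩
      simp [hi]
    · intro f hf
      have hsub : ∀ g : MvPolynomial σ k, g - aeval (fun i => if i ∈ S then 0 else X i) g ∈
          Ideal.span ((X : σ → MvPolynomial σ k) '' S) := by
        intro g
        induction g using MvPolynomial.induction_on with
        | C a => simp
        | add p q hp hq =>
          rw [map_add, add_sub_add_comm]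
          exact Ideal.add_mem _ hp hq
        | mul_X p i hp =>
          rw [map_mul, aeval_X]
          by_cases hi : i ∈ S
          · rw [if_pos hi, mul_zero, sub_zero]
            exact Ideal.mul_mem_left _ _ (Ideal.subset_span ⟨i, hi, rfl⟩)
          · rw [if_neg hi, ← sub_mul]
            exact Ideal.mul_mem_right _ _ hp
      have h0 := hsub f
      rwa [RingHom.mem_ker.mp hf, sub_zero] at h0
  rw [h]
  exact RingHom.ker_isPrime _

/-- A finite extension does not increase heights. -/
theorem height_le_height_comap {A B : Type*} [CommRing A] [CommRing B] (f : A →+* B)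
    (hf : f.IsIntegral) (P : Ideal B) [P.IsPrime] : P.height ≤ (P.comap f).height := by
  algebraize [f]
  have : Algebra.IsIntegral A B := ⟨hf⟩
  let Q : PrimeSpectrum B := ⟨P, ‹_›⟩
  have hmono : StrictMono (PrimeSpectrum.comap f) := fun p q hpq =>
    Ideal.IsIntegral.comap_lt_comap (A := B) hpq
  have h1 := PrimeSpectrum.height_eq_orderHeight Q
  have h2 := PrimeSpectrum.height_eq_orderHeight (PrimeSpectrum.comap f Q)
  exact h1.le.trans ((Order.height_le_height_apply_of_strictMono _ hmono Q).trans h2.ge)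

/-- The number of coordinates in `S` is at least the height of the ideal, capped by `d`. -/
theorem exists_coordinates_height {d : ℕ} (J : Ideal (MvPolynomial (Fin d) k)) (h : ℕ)
    (hJ : ∀ P : Ideal (MvPolynomial (Fin d) k), P.IsPrime → J ≤ P → (h : ℕ∞) ≤ P.height) :
    ∃ (ψ : MvPolynomial (Fin d) k →ₐ[k] MvPolynomial (Fin d) k) (S : Finset (Fin d)),
      FreeHom (ψ : MvPolynomial (Fin d) k →+* MvPolynomial (Fin d) k) ∧
      (∀ f, constantCoeff (ψ f) = constantCoeff f) ∧
      (∀ i ∈ S, ψ (X i) ∈ J) ∧ min h d ≤ S.card := by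
  classical
  let m0 : Ideal (MvPolynomial (Fin d) k) := RingHom.ker constantCoeff
  obtain ⟨ψ, S, hψ, hcc, hS⟩ := exists_coordinates d (J * m0) fun f hf =>
    RingHom.mem_ker.mp (Ideal.mul_le_right hf)
  refine ⟨ψ, S, hψ, hcc, fun i hi => ?_, ?_⟩
  · have : X i ∈ (J * m0).comap ψ := hS ▸ Ideal.subset_span ⟨i, hi, rfl⟩
    exact Ideal.mul_le_left (Ideal.mem_comap.mp this)
  have hint : (ψ : MvPolynomial (Fin d) k →+* MvPolynomial (Fin d) k).IsIntegral := by
    letI := (ψ : MvPolynomial (Fin d) k →+* MvPolynomial (Fin d) k).toAlgebra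
    have := hψ.module.2
    exact fun x => (Algebra.IsIntegral.isIntegral x : IsIntegral (MvPolynomial (Fin d) k) x)
  have hprime := isPrime_span_X (k := k) (S : Set (Fin d))
  obtain ⟨P, hJP, hP, hPc⟩ : ∃ P ≥ J * m0, P.IsPrime ∧
      P.comap ψ = Ideal.span (X '' (S : Set (Fin d))) := by
    letI := (ψ : MvPolynomial (Fin d) k →+* MvPolynomial (Fin d) k).toAlgebra
    have : Algebra.IsIntegral (MvPolynomial (Fin d) k) (MvPolynomial (Fin d) k) := ⟨hint⟩
    exact Ideal.exists_ideal_over_prime_of_isIntegral _ (J * m0) hS.le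
  rcases hP.mul_le.mp hJP with hle | hle
  · have h1 : (h : ℕ∞) ≤ P.height := hJ P hP hle
    have h2 : P.height ≤ (Ideal.span ((X : _ → MvPolynomial (Fin d) k) '' (S : Set (Fin d)))).height := by
      have := height_le_height_comap _ hint P
      rw [← hPc]
      exact this
    have h3 : (Ideal.span ((X : _ → MvPolynomial (Fin d) k) '' (S : Set (Fin d)))).height ≤
        (S.card : ℕ∞) := by
      rw [← Finset.coe_image]
      refine (Ideal.height_le_card_of_mem_minimalPrimes_span_finset (s := S.image X)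
        (p := Ideal.span _) ?_).trans (by exact_mod_cast Finset.card_image_le)
      exact ⟨⟨by rw [Finset.coe_image]; exact hprime, le_rfl⟩, fun q hq _ => hq.2⟩
    exact le_trans (min_le_left _ _) (by exact_mod_cast h1.trans (h2.trans h3))
  · have huniv : S = Finset.univ := by
      refine Finset.eq_univ_iff_forall.mpr fun i => ?_
      by_contra hi
      have h1 : X i ∈ Ideal.span ((X : _ → MvPolynomial (Fin d) k) '' (S : Set (Fin d))) :=
        hPc ▸ Ideal.mem_comap.mpr (hle (RingHom.mem_ker.mpr (by rw [hcc]; exact constantCoeff_X _ i)))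
      obtain ⟨j, hj, hij⟩ := MvPolynomial.mem_ideal_span_X_image.mp h1 (Finsupp.single i 1) (by simp)
      rcases eq_or_ne i j with rfl | hne
      · exact hi hj
      · simp [Finsupp.single_eq_of_ne' hne] at hij
    simp [huniv]

end Vale.Agent.P190
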