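import Vale.Agent.P190.Main
import Vale.Agent.P190.Norm
import Vale.Agent.P190.Bad

/-!
Choosing parameters: from Frobenius summands and small dimension to small Cohen–Macaulay modules.
-/

namespace Vale.Agent.P190

open MvPolynomial

theorem Factors.restrict {A' A V : Type*} [CommRing A'] [CommRing A] [Algebra A' A]
    [Module.Free A' A] [Module.Finite A' A] [AddCommGroup V] [Module A V] [Module A' V]
    [IsScalarTower A' A V] {y : A'} (h : Factors V (algebraMap A' A y)) : Factors V y := by
  classical
  rcases subsingleton_or_nontrivial A' with h0 | h0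
  · have : Subsingleton V := Module.subsingleton A' V
    exact ⟨0, 0, 0, Subsingleton.elim _ _⟩
  obtain ⟨m, s, π, hπ⟩ := h
  let b := Module.Free.chooseBasis A' (Fin m → A)
  let N := Fintype.card (Module.Free.ChooseBasisIndex A' (Fin m → A))
  let e : (Fin m → A) ≃ₗ[A'] (Fin N → A') := (b.reindex (Fintype.equivFin _)).equivFun
  refine ⟨N, e.toLinearMap ∘ₗ s.restrictScalars A', π.restrictScalars A' ∘ₗ e.symm.toLinearMap, ?_⟩
  refine LinearMap.ext fun v => ?_
  have h1 := LinearMap.congr_fun hπ v
  simp only [LinearMap.comp_apply, LinearMap.coe_restrictScalars, LinearEquiv.coe_coe,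
    LinearEquiv.symm_apply_apply, LinearMap.smul_apply, LinearMap.id_apply] at h1 ⊢
  rw [h1, algebraMap_smul]

/-- Lying over and going up: an injective integral extension does not decrease dimension. -/
theorem ringKrullDim_le_of_isIntegral {A B : Type*} [CommRing A] [CommRing B] [Algebra A B]
    [Algebra.IsIntegral A B] (hinj : Function.Injective (algebraMap A B)) :
    ringKrullDim A ≤ ringKrullDim B := by
  rw [ringKrullDim, ringKrullDim, Order.krullDim]
  refine iSup_le fun l => ?_
  suffices h : ∀ (N : ℕ) (l : LTSeries (PrimeSpectrum A)), l.length = N →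
      ∃ l' : LTSeries (PrimeSpectrum B), l'.length = N ∧
        PrimeSpectrum.comap (algebraMap A B) (RelSeries.last l') = RelSeries.last l by
    obtain ⟨l', hl', -⟩ := h l.length l rfl
    exact le_iSup_of_le l' (by rw [hl'])
  intro N
  induction N with
  | zero =>
    intro l hl
    obtain ⟨Q, -, hQ, hQc⟩ := Ideal.exists_ideal_over_prime_of_isIntegral
      (RelSeries.last l).asIdeal (⊥ : Ideal B) (by
        rw [← RingHom.ker_eq_comap_bot, (RingHom.injective_iff_ker_eq_bot _).mp hinj]
        exact bot_le)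
    exact ⟨RelSeries.singleton _ ⟨Q, hQ⟩, rfl, PrimeSpectrum.ext hQc⟩
  | succ N ih =>
    intro l hl
    obtain ⟨l', hl', hlast⟩ := ih l.eraseLast (by simp [hl])
    have hlt : RelSeries.last l.eraseLast < RelSeries.last l :=
      l.eraseLast_last_rel_last (by omega)
    obtain ⟨Q, hQle, hQ, hQc⟩ := Ideal.exists_ideal_over_prime_of_isIntegral
      (RelSeries.last l).asIdeal (RelSeries.last l').asIdeal (by
        have := congrArg PrimeSpectrum.asIdeal hlast
        rw [PrimeSpectrum.comap_asIdeal] at this
        rw [this]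
        exact hlt.le)
    have hrel : RelSeries.last l' < (⟨Q, hQ⟩ : PrimeSpectrum B) := by
      refine lt_of_le_of_ne hQle fun he => hlt.ne ?_
      rw [← hlast, he]
      exact PrimeSpectrum.ext hQc
    refine ⟨l'.snoc ⟨Q, hQ⟩ hrel, by simp [hl'], ?_⟩
    rw [RelSeries.last_snoc]
    exact PrimeSpectrum.ext hQc

variable {p : ℕ} [hp : Fact p.Prime] {k : Type} [Field k] [CharP k p] [PerfectRing k p]

/-- The hull with coordinates in which few variables fail to factor through free modules. -/
theorem exists_hull_coordinates {R : Type} [CommRing R] [IsDomain R] {d : ℕ}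
    [Algebra (MvPolynomial (Fin d) k) R] [FaithfulSMul (MvPolynomial (Fin d) k) R]
    [Module.Finite (MvPolynomial (Fin d) k) R] (r : ℕ) (hr : 1 ≤ r)
    (hfree : ∀ P : Ideal (MvPolynomial (Fin d) k), P.IsPrime → 3 ≤ P.height →
      P.height + r ≤ d → ¬ factorIdeal (MvPolynomial (Fin d) k) R ≤ P) :
    ∃ (ψ : MvPolynomial (Fin d) k →ₐ[k] MvPolynomial (Fin d) k) (S : Finset (Fin d)),
      FreeHom (ψ : MvPolynomial (Fin d) k →+* MvPolynomial (Fin d) k) ∧
      (∀ f, constantCoeff (ψ f) = constantCoeff f) ∧
      (∀ i ∈ S, Factors (hull (MvPolynomial (Fin d) k) R) (ψ (X i))) ∧ Sᶜ.card < r := by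
  classical
  set A := MvPolynomial (Fin d) k
  have : Module.Finite R (hull A R) := hull_finite
  have : Module.Finite A (hull A R) := Module.Finite.trans R (hull A R)
  have : IsRegularRing A := inferInstance
  have : Module.IsTorsionFree A (hull A R) := Module.IsTorsionFree.trans (R := R)
  have h1 : ∀ P : Ideal A, P.IsPrime → P.height ≤ 1 → ¬ factorIdeal A (hull A R) ≤ P := by
    intro P _ hP hle
    have := free_of_height_le_one (V := hull A R) P hP
    obtain ⟨t, ht, htJ⟩ := exists_mem_of_free (V := hull A R) P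
    exact ht (hle htJ)
  have h3 : ∀ P : Ideal A, P.IsPrime → factorIdeal A (hull A R) ≤ P →
      ((max 3 (d + 1 - r) : ℕ) : ℕ∞) ≤ P.height := by
    intro P hP hle
    by_contra hlt
    obtain ⟨n, hn⟩ := ENat.ne_top_iff_exists.mp (ne_top_of_lt (not_le.mp hlt))
    rw [← hn, Nat.cast_le, not_le] at hlt
    rcases le_or_gt 3 n with h3n | h3n
    · refine hfree P hP (by rw [← hn]; exact_mod_cast h3n) (by rw [← hn]; exact_mod_cast
        (show n + r ≤ d by omega)) ((factorIdeal_le_factorIdeal_hull (A := A) (R := R)).trans hle)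
    have hP2 : P.height ≤ (2 : ℕ) := by rw [← hn]; exact_mod_cast (show n ≤ 2 by omega)
    rcases lt_or_eq_of_le hP2 with hlt2 | heq
    · exact h1 P hP (by simpa using hlt2) hle
    · have hdiv : ∀ (π w : A) (x x' : hull A R), Prime π → ¬ π ∣ w → w • x = π • x' →
          ∃ x₀, x = π • x₀ := by
        intro π w x x' hπ hw he
        obtain ⟨x₀, hx₀⟩ := hull_dvd (r := x) (r' := x') hπ hw (by
          rw [← Algebra.smul_def, ← Algebra.smul_def, algebraMap_smul, algebraMap_smul]
          exact he)
        exact ⟨x₀, by rw [hx₀, ← Algebra.smul_def, algebraMap_smul]⟩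
      have := free_of_height_eq_two hdiv P (by simpa using heq)
      obtain ⟨t, ht, htJ⟩ := exists_mem_of_free (V := hull A R) P
      exact ht (hle htJ)
  obtain ⟨ψ, S, hψ, hcc, hψJ, hcard⟩ := exists_coordinates_height (factorIdeal A (hull A R)) (max 3 (d + 1 - r)) h3
  refine ⟨ψ, S, hψ, hcc, fun i hi => factors_of_mem (hψJ i hi), ?_⟩
  rw [Finset.card_compl, Fintype.card_fin]
  omega

/-- Frobenius summands and small dimension give small Cohen–Macaulay modules at rational points. -/
theorem exists_small_CM_of_projections {R : Type} [CommRing R] [IsDomain R] [Algebra k R]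
    [Algebra.FiniteType k R] [IsNoetherianRing R] (r D : ℕ) (hr : 1 ≤ r)
    (hproj : ∀ e : ℕ, ∃ (I : Type) (_ : Fintype I), Nonempty (Projections R (p ^ e) I) ∧
      (p ^ e) ^ r ≤ Fintype.card I * D)
    (hbad : ringKrullDim R ≤ ((r + 2 : ℕ) : WithBot ℕ∞) ∨ ∃ (d : ℕ)
      (g : MvPolynomial (Fin d) k →ₐ[k] R), Function.Injective g ∧ g.Finite ∧
        ∀ Q : Ideal (MvPolynomial (Fin d) k), Q.IsPrime → 3 ≤ Q.height → Q.height + r ≤ d →
          ¬ @factorIdeal (MvPolynomial (Fin d) k) R _ _ g.toRingHom.toAlgebra.toModule ≤ Q)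
    (m : Ideal R) [m.IsMaximal]
    (hres : Function.Surjective ((Ideal.Quotient.mk m).comp (algebraMap k R))) :
    ∃ d : ℕ, ringKrullDim (Localization.AtPrime m) = d ∧
    IsNoetherianRing (AdicCompletion (IsLocalRing.maximalIdeal (Localization.AtPrime m))
      (Localization.AtPrime m)) ∧
    ringKrullDim (AdicCompletion (IsLocalRing.maximalIdeal (Localization.AtPrime m))
      (Localization.AtPrime m)) = d ∧
    (∃ (M : Type) (_ : AddCommGroup M) (_ : Module (Localization.AtPrime m) M),
      Module.Finite (Localization.AtPrime m) M ∧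
      ∃ rs : List (Localization.AtPrime m), rs.length = d ∧
        (∀ x ∈ rs, x ∈ IsLocalRing.maximalIdeal (Localization.AtPrime m)) ∧
        RingTheory.Sequence.IsRegular M rs) ∧
    (∃ (M : Type) (_ : AddCommGroup M) (_ : Module (AdicCompletion
        (IsLocalRing.maximalIdeal (Localization.AtPrime m)) (Localization.AtPrime m)) M),
      Module.Finite (AdicCompletion
        (IsLocalRing.maximalIdeal (Localization.AtPrime m)) (Localization.AtPrime m)) M ∧
      ∃ rs : List (AdicCompletion
        (IsLocalRing.maximalIdeal (Localization.AtPrime m)) (Localization.AtPrime m)),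
        rs.length = d ∧
        (∀ x ∈ rs, x ∈ IsLocalRing.maximalIdeal (AdicCompletion
          (IsLocalRing.maximalIdeal (Localization.AtPrime m)) (Localization.AtPrime m))) ∧
        RingTheory.Sequence.IsRegular M rs) := by
  classical
  obtain ⟨d, g0, hg0, hg0f, hfree0⟩ : ∃ (d : ℕ) (g0 : MvPolynomial (Fin d) k →ₐ[k] R),
      Function.Injective g0 ∧ g0.Finite ∧ ∀ Q : Ideal (MvPolynomial (Fin d) k), Q.IsPrime →
        3 ≤ Q.height → Q.height + r ≤ d →
          ¬ @factorIdeal (MvPolynomial (Fin d) k) R _ _ g0.toRingHom.toAlgebra.toModule ≤ Q := by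
    rcases hbad with hdim | h
    · obtain ⟨d, g0, hg0, hg0f⟩ := exists_finite_inj_algHom_of_fg k R
      refine ⟨d, g0, hg0, hg0f, fun Q _ h3 hle => ?_⟩
      have hd : (d : WithBot ℕ∞) ≤ ringKrullDim R := by
        let _ := g0.toRingHom.toAlgebra
        have : Module.Finite (MvPolynomial (Fin d) k) R := hg0f
        have h := ringKrullDim_le_of_isIntegral (A := MvPolynomial (Fin d) k) (B := R) hg0
        simpa [MvPolynomial.ringKrullDim_of_isNoetherianRing] using h
      have hd2 : d ≤ r + 2 := by exact_mod_cast hd.trans hdim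
      obtain ⟨n, hn⟩ := ENat.ne_top_iff_exists.mp (ne_top_of_le_ne_top (ENat.natCast_ne_top d)
        (le_self_add.trans hle))
      rw [← hn] at h3 hle
      norm_cast at h3 hle
      omega
    · exact h
  refine ⟨d, ?_⟩
  -- move the point to the origin
  choose a ha using fun i => hres (Ideal.Quotient.mk m (g0 (X i)))
  let τ : MvPolynomial (Fin d) k →ₐ[k] MvPolynomial (Fin d) k := aeval fun i => X i - C (a i)
  let τ' : MvPolynomial (Fin d) k →ₐ[k] MvPolynomial (Fin d) k := aeval fun i => X i + C (a i)
  have hττ : τ'.comp τ = AlgHom.id _ _ := by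
    ext i v; simp [τ, τ']
  have hττ' : τ.comp τ' = AlgHom.id _ _ := by
    ext i v; simp [τ, τ']
  let g : MvPolynomial (Fin d) k →ₐ[k] R := g0.comp τ
  have hg : Function.Injective g := hg0.comp fun x y h => by
    simpa [← AlgHom.comp_apply, hττ] using congrArg τ' h
  have hgf : g.Finite := hg0f.comp (AlgHom.Finite.of_surjective τ (fun x => ⟨τ' x, by
    rw [← AlgHom.comp_apply, hττ', AlgHom.id_apply]⟩))
  have hgm : ∀ i, g (X i) ∈ m := by
    intro i
    have h := ha i
    rw [RingHom.comp_apply] at h
    rw [← Ideal.Quotient.eq_zero_iff_mem]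
    simp [g, τ, map_sub, h, sub_self]
  -- freeness moves with the origin
  let et : MvPolynomial (Fin d) k ≃ₐ[k] MvPolynomial (Fin d) k := AlgEquiv.ofAlgHom τ τ' hττ' hττ
  have hfree : ∀ Q : Ideal (MvPolynomial (Fin d) k), Q.IsPrime → 3 ≤ Q.height → Q.height + r ≤ d →
      ¬ @factorIdeal (MvPolynomial (Fin d) k) R _ _ g.toRingHom.toAlgebra.toModule ≤ Q := by
    intro Q hQ h3 hle hsub
    have hh := et.toRingEquiv.symm.height_comap Q
    refine hfree0 (Q.comap et.toRingEquiv.symm) (Ideal.IsPrime.comap _) (by rw [hh]; exact h3)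
      (by rw [hh]; exact hle) fun t ht => ?_
    exact hsub (mem_factorIdeal_of_equiv et.toRingEquiv g0.toRingHom g.toRingHom (fun _ => rfl) t ht)
  -- the hull and a coordinate change putting many variables into its factor ideal
  obtain ⟨R₂, hfin, hproj₂, ψ, S, hψ, hψcc, hψJ, hScard⟩ :
      ∃ R₂ : Subalgebra R (FractionRing R), Module.Finite R R₂ ∧
        (∀ (q : ℕ), 0 < q → ∀ I : Type, Projections R q I → Nonempty (Projections R₂ q I)) ∧
        ∃ (ψ : MvPolynomial (Fin d) k →ₐ[k] MvPolynomial (Fin d) k) (S : Finset (Fin d)),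
          FreeHom (ψ : MvPolynomial (Fin d) k →+* MvPolynomial (Fin d) k) ∧
          (∀ f, constantCoeff (ψ f) = constantCoeff f) ∧
          (∀ i ∈ S,
            letI := ((algebraMap R R₂).comp g.toRingHom).toAlgebra
            Factors R₂ (ψ (X i))) ∧ Sᶜ.card < r := by
    let _ := g.toRingHom.toAlgebra
    have : Module.Finite (MvPolynomial (Fin d) k) R := hgf
    have : FaithfulSMul (MvPolynomial (Fin d) k) R :=
      (faithfulSMul_iff_algebraMap_injective _ _).mpr hg
    obtain ⟨ψ, S, hψ, hψcc, hJ, hcard⟩ :=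
      exists_hull_coordinates (k := k) (d := d) (R := R) r hr hfree
    refine ⟨hull (MvPolynomial (Fin d) k) R, hull_finite,
      fun q hq I P => hull_projections hq P, ψ, S, hψ, hψcc, fun i hi => ?_, hcard⟩
    have e : ((algebraMap R (hull (MvPolynomial (Fin d) k) R)).comp g.toRingHom).toAlgebra =
        (hull (MvPolynomial (Fin d) k) R).algebra' :=
      Algebra.algebra_ext _ _ fun _ => rfl
    rw [e]
    exact hJ i hi
  let _ := (g.comp ψ).toRingHom.toAlgebra
  have : IsScalarTower k (MvPolynomial (Fin d) k) R :=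
    IsScalarTower.of_algebraMap_eq fun x => ((g.comp ψ).commutes x).symm
  have : Module.Finite (MvPolynomial (Fin d) k) R := by
    have hψf : ψ.Finite := hψ.module.2
    exact hgf.comp hψf
  let gψ₂ := (algebraMap R R₂).comp (g.comp ψ).toRingHom
  let _ := gψ₂.toAlgebra
  have : IsScalarTower (MvPolynomial (Fin d) k) R R₂ := IsScalarTower.of_algebraMap_eq fun _ => rfl
  have : IsScalarTower k (MvPolynomial (Fin d) k) R₂ := IsScalarTower.of_algebraMap_eq fun x => by
    show algebraMap k R₂ x = algebraMap R R₂ (g.comp ψ (algebraMap k _ x))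
    rw [(g.comp ψ).commutes]
    exact IsScalarTower.algebraMap_apply k R R₂ x
  have hfac : ∀ i ∈ S, Factors R₂ (X i : MvPolynomial (Fin d) k) := by
    intro i hi
    let A := MvPolynomial (Fin d) k
    -- the middle copy of the polynomial ring
    let i1 : Algebra A A := ψ.toRingHom.toAlgebra
    let i2 : Algebra A R₂ := ((algebraMap R R₂).comp g.toRingHom).toAlgebra
    exact @Factors.restrict A A R₂ _ _ i1 hψ.module.1 hψ.module.2 _ i2.toModule
      gψ₂.toAlgebra.toModule
      (@IsScalarTower.of_algebraMap_eq A A R₂ _ _ _ i1 i2 gψ₂.toAlgebra fun x => rfl) (X i)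
      (hψJ i hi)
  have : FaithfulSMul R R₂ := (faithfulSMul_iff_algebraMap_injective _ _).mpr fun x y h =>
    IsFractionRing.injective R (FractionRing R) (congrArg Subtype.val h)
  have hproj' : ∀ e : ℕ, ∃ (I : Type) (_ : Fintype I), Nonempty (Projections R₂ (p ^ e) I) ∧
      (p ^ e) ^ r ≤ Fintype.card I * D := fun e => by
    obtain ⟨I, hI, ⟨P⟩, hc⟩ := hproj e
    exact ⟨I, hI, hproj₂ _ (pow_pos hp.out.pos e) I P, hc⟩
  refine exists_small_CM r D hproj' S hfac hScard m fun i => ?_
  show g (ψ (X i)) ∈ m
  have h0 : constantCoeff (ψ (X i)) = 0 := by rw [hψcc, constantCoeff_X]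
  have hker : ∀ f : MvPolynomial (Fin d) k, g f - algebraMap k R (constantCoeff f) ∈ m := by
    intro f
    induction f using MvPolynomial.induction_on with
    | C c => simp [← MvPolynomial.algebraMap_eq]
    | add f f' hf hf' =>
      rw [map_add, map_add, map_add, add_sub_add_comm]
      exact m.add_mem hf hf'
    | mul_X f j hf =>
      rw [map_mul, map_mul, constantCoeff_X, mul_zero, map_zero, sub_zero]
      exact m.mul_mem_left _ (hgm j)
  simpa [h0] using hker (ψ (X i))

end Vale.Agent.P190
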