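import Vale.Agent.P190.Koszul

/-!
Length bounds for first Koszul homology with respect to powers of variables.
-/

namespace Vale.Agent.P190

open MvPolynomial

section Map

variable {A : Type*} [CommRing A] {M N : Type*} [AddCommGroup M] [Module A M]
  [AddCommGroup N] [Module A N] {ι κ : Type*}

theorem compLeft_apply' (f : M →ₗ[A] N) (u : ι → M) : f.compLeft ι u = fun i => f (u i) := rfl

theorem bdry_map [DecidableEq ι] (a : ι → A) (f : M →ₗ[A] N) {u : ι → M}
    (hu : u ∈ bdry a M) : f.compLeft ι u ∈ bdry a N := by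
  suffices h : bdry a M ≤ (bdry a N).comap (f.compLeft ι) from h hu
  refine iSup_le fun p => ?_
  rintro v ⟨m, rfl⟩
  rw [Submodule.mem_comap]
  refine Submodule.mem_iSup_of_mem p ⟨f m, ?_⟩
  funext i
  simp [bd_apply, Pi.single_apply, compLeft_apply', apply_ite f]

theorem lin_map [Fintype ι] (a : ι → A) (f : M →ₗ[A] N) (u : ι → M) :
    lin a N (f.compLeft ι u) = f (lin a M u) := by
  simp [compLeft_apply']

variable [Fintype ι] [Fintype κ] [DecidableEq ι] [DecidableEq κ]

theorem lin_reindex (e : ι ≃ κ) (a : κ → A) (u : κ → M) :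
    lin (a ∘ e) M (u ∘ e) = lin a M u := by
  simp only [lin_apply, Function.comp_apply]
  exact Equiv.sum_comp e fun i => a i • u i

omit [Fintype ι] [Fintype κ] in
theorem bdry_reindex (e : ι ≃ κ) (a : κ → A) {u : κ → M} (hu : u ∈ bdry a M) :
    u ∘ e ∈ bdry (a ∘ e) M := by
  suffices h : bdry a M ≤ (bdry (a ∘ e) M).comap (LinearMap.funLeft A M e) from h hu
  refine iSup_le fun p => ?_
  rintro v ⟨m, rfl⟩
  rw [Submodule.mem_comap]
  refine Submodule.mem_iSup_of_mem (e.symm p.1, e.symm p.2) ⟨m, ?_⟩
  funext i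
  simp [bd_apply, Pi.single_apply, LinearMap.funLeft, ← Equiv.apply_eq_iff_eq_symm_apply]

theorem Exact1.reindex (e : ι ≃ κ) {a : κ → A} (h : Exact1 (a ∘ e) M) : Exact1 a M := by
  intro u hu
  have h1 : u ∘ e ∈ bdry (a ∘ e) M :=
    h (by rw [LinearMap.mem_ker, lin_reindex]; exact hu)
  have h2 := bdry_reindex e.symm (a ∘ e) h1
  simpa [Function.comp_assoc] using h2

/-- Transport of homology along a reindexing. -/
def reMap (e : ι ≃ κ) (a : κ → A) : H1 a M →ₗ[A] H1 (a ∘ e) M :=
  Submodule.mapQ _ _
    (LinearMap.codRestrict _ ((LinearMap.funLeft A M e) ∘ₗ (LinearMap.ker (lin a M)).subtype)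
      fun u => by
        rw [LinearMap.mem_ker]
        exact (lin_reindex e a _).trans u.2)
    fun _ hu => bdry_reindex e a hu

theorem reMap_surjective (e : ι ≃ κ) (a : κ → A) : Function.Surjective (reMap (M := M) e a) := by
  intro x
  obtain ⟨v, rfl⟩ := Submodule.Quotient.mk_surjective _ x
  have hv : lin a M ((v : ι → M) ∘ e.symm) = 0 := by
    rw [← lin_reindex e a]
    simpa [Function.comp_assoc] using v.2
  refine ⟨cls a M ⟨_, hv⟩, ?_⟩
  refine congrArg Submodule.Quotient.mk (Subtype.ext ?_)
  funext i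
  simp [LinearMap.funLeft]

theorem length_reindex (k : Type*) [CommRing k] [Algebra k A] [Module k M] [IsScalarTower k A M]
    (e : ι ≃ κ) (a : κ → A) :
    Module.length k (H1 (a ∘ e) M) = Module.length k (H1 a M) := by
  apply le_antisymm
  · exact Module.length_le_of_surjective ((reMap (M := M) e a).restrictScalars k)
      (reMap_surjective e a)
  · have h := Module.length_le_of_surjective ((reMap (M := M) e.symm (a ∘ e)).restrictScalars k)
      (reMap_surjective (M := M) e.symm (a ∘ e))
    have he : (a ∘ e) ∘ e.symm = a := by funext i; simp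
    exact le_trans (le_of_eq (congrArg (fun b : κ → A => Module.length k (H1 b M)) he.symm)) h

theorem subsingleton_H1_iff (a : ι → A) : Subsingleton (H1 a M) ↔ Exact1 a M := by
  constructor
  · intro h u hu
    exact (cls_eq_zero a ⟨u, hu⟩).mp (Subsingleton.elim _ _)
  · intro h
    refine ⟨fun x y => ?_⟩
    obtain ⟨u, rfl⟩ := Submodule.Quotient.mk_surjective _ x
    obtain ⟨v, rfl⟩ := Submodule.Quotient.mk_surjective _ y
    exact (Submodule.Quotient.eq _).mpr (h (sub_mem u.2 v.2))

end Map

section Poly

variable {k : Type*} [Field k] {σ ι : Type*} [Fintype ι] [DecidableEq ι]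

/-- Powers of distinct variables. -/
noncomputable abbrev xpow (k : Type*) [Field k] {σ ι : Type*} (f : ι → σ) (e : ι → ℕ) :
    ι → MvPolynomial σ k :=
  fun i => X (f i) ^ e i

omit [DecidableEq ι] in
theorem range_lin_pi {A : Type*} [CommRing A] {n : ℕ} (a : ι → A) (v : Fin n → A) :
    v ∈ LinearMap.range (lin a (Fin n → A)) ↔ ∀ c, v c ∈ Ideal.span (Set.range a) := by
  classical
  constructor
  · rintro ⟨u, rfl⟩ c
    rw [lin_apply, Finset.sum_apply]
    exact Ideal.sum_mem _ fun i _ =>
      Ideal.mul_mem_right _ _ (Ideal.subset_span ⟨i, rfl⟩)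
  · intro h
    choose u hu using fun c => Ideal.mem_span_range_iff_exists_fun.mp (h c)
    refine ⟨fun i c => u c i, ?_⟩
    funext c
    rw [lin_apply, Finset.sum_apply, ← hu c]
    exact Finset.sum_congr rfl fun i _ => mul_comm _ _

omit [Fintype ι] [DecidableEq ι] in
theorem colon_monomial (f : ι → σ) (e : ι → ℕ) (t : σ) (ht : ∀ i, f i ≠ t) (m : ℕ)
    (v : MvPolynomial σ k) (hv : X t ^ m * v ∈ Ideal.span (Set.range (xpow k f e))) :
    v ∈ Ideal.span (Set.range (xpow k f e)) := by
  classical
  have hr : Set.range (xpow k f e) =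
      (fun d => monomial d (1 : k)) '' Set.range (fun i => Finsupp.single (f i) (e i)) := by
    rw [← Set.range_comp]
    refine congrArg Set.range (funext fun i => ?_)
    simp [xpow, X_pow_eq_monomial]
  rw [hr, mem_ideal_span_monomial_image] at hv ⊢
  intro d hd
  have hd' : Finsupp.single t m + d ∈ (X t ^ m * v).support := by
    rw [mem_support_iff, X_pow_eq_monomial, coeff_monomial_mul, one_mul]
    exact mem_support_iff.mp hd
  obtain ⟨_, ⟨i, rfl⟩, hle⟩ := hv _ hd'
  refine ⟨_, ⟨i, rfl⟩, ?_⟩
  rw [Finsupp.single_le_iff] at hle ⊢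
  rw [Finsupp.add_apply, Finsupp.single_eq_of_ne (ht i), zero_add] at hle
  exact hle

omit [DecidableEq ι] in
theorem colon_free {n : ℕ} (f : ι → σ) (e : ι → ℕ) (t : σ) (ht : ∀ i, f i ≠ t) (m : ℕ)
    (v : Fin n → MvPolynomial σ k)
    (hv : (X t : MvPolynomial σ k) ^ m • v ∈ LinearMap.range (lin (xpow k f e) (Fin n → MvPolynomial σ k))) :
    v ∈ LinearMap.range (lin (xpow k f e) (Fin n → MvPolynomial σ k)) := by
  rw [range_lin_pi] at hv ⊢
  exact fun c => colon_monomial f e t ht m _ (hv c)

omit [Fintype ι] [DecidableEq ι] in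
theorem exact_free (n : ℕ) : ∀ (ι : Type) [Fintype ι] [DecidableEq ι] (f : ι → σ) (e : ι → ℕ),
    Function.Injective f → Exact1 (xpow k f e) (Fin n → MvPolynomial σ k) := by
  classical
  refine fun ι hι => Fintype.induction_empty_option
    (P := fun (α : Type) _ => ∀ [DecidableEq α] (f : α → σ) (e : α → ℕ), Function.Injective f →
      Exact1 (xpow k f e) (Fin n → MvPolynomial σ k)) ?_ ?_ ?_ ι
  · intro α β _ e ih _ f w hf
    let _ : Fintype α := Fintype.ofEquiv β e.symm
    exact Exact1.reindex e (ih (f ∘ e) (w ∘ e) (hf.comp e.injective))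
  · intro _ f w _ u _
    rw [Subsingleton.elim u 0]
    exact zero_mem _
  · intro α _ ih inst f w hf
    obtain rfl : inst = fun a b => @Option.instDecidableEq α (Classical.decEq α) a b := Subsingleton.elim _ _
    have hrest := ih (f ∘ some) (w ∘ some) (hf.comp (Option.some_injective _))
    have h1 : Subsingleton (H1 (xpow k f w ∘ some) (Fin n → MvPolynomial σ k)) :=
      (subsingleton_H1_iff _).mpr hrest
    have h2 : Subsingleton (colon1 (M := Fin n → MvPolynomial σ k) (xpow k f w)) := by
      refine subsingleton_of_forall_eq 0 ?_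
      rintro ⟨x, hx⟩
      obtain ⟨v, rfl⟩ := Submodule.Quotient.mk_surjective _ x
      rw [LinearMap.mem_ker, LinearMap.lsmul_apply, ← Submodule.Quotient.mk_smul,
        Submodule.Quotient.mk_eq_zero] at hx
      apply Subtype.ext
      exact (Submodule.Quotient.mk_eq_zero _).mpr
        (colon_free (f ∘ some) (w ∘ some) (f none) (fun i h => by simpa using hf h) _ v hx)
    intro u hu
    apply (cls_eq_zero _ ⟨u, hu⟩).mp
    obtain ⟨y, hy⟩ := (colonMap_exact (M := Fin n → MvPolynomial σ k) (xpow k f w)
      (cls (xpow k f w) (Fin n → MvPolynomial σ k) ⟨u, hu⟩)).mp (Subsingleton.elim _ _)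
    rw [← hy, Subsingleton.elim y 0, map_zero]

end Poly

section Bound

variable {k : Type*} [Field k] {σ : Type} [Fintype σ] [DecidableEq σ]
variable {V : Type*} [AddCommGroup V] [Module (MvPolynomial σ k) V] [Module k V]
  [IsScalarTower k (MvPolynomial σ k) V]

theorem length_quot_le {n : ℕ} (g : Fin n → V)
    (hg : Submodule.span (MvPolynomial σ k) (Set.range g) = ⊤) (e : σ → ℕ) :
    Module.length k (V ⧸ LinearMap.range (lin (xpow k (id : σ → σ) e) V)) ≤ n * (∏ i, e i : ℕ) := by
  let Q := V ⧸ LinearMap.range (lin (xpow k (id : σ → σ) e) V)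
  let α : (∀ i, Fin (e i)) → σ →₀ ℕ := fun b => Finsupp.equivFunOnFinite.symm fun i => (b i : ℕ)
  let Φ : (Fin n × (∀ i, Fin (e i)) → k) →ₗ[k] Q :=
    Fintype.linearCombination k fun p =>
      Submodule.Quotient.mk (monomial (α p.2) (1 : k) • g p.1)
  have hmono : ∀ (i : Fin n) (d : σ →₀ ℕ) (c : k),
      (Submodule.Quotient.mk (monomial d c • g i) : Q) ∈ LinearMap.range Φ := by
    intro i d c
    by_cases hd : ∀ j, d j < e j
    · refine ⟨Pi.single (i, fun j => ⟨d j, hd j⟩) c, ?_⟩
      have hα : α (fun j => ⟨d j, hd j⟩) = d := by ext j; simp [α]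
      simp only [Φ, Fintype.linearCombination_apply_single, hα]
      rw [← Submodule.Quotient.mk_smul, ← smul_assoc, smul_monomial, smul_eq_mul, mul_one]
    · obtain ⟨j, hj⟩ := not_forall.mp hd
      refine ⟨0, ?_⟩
      rw [map_zero, eq_comm, Submodule.Quotient.mk_eq_zero]
      refine ⟨Pi.single j (monomial (d - Finsupp.single j (e j)) c • g i), ?_⟩
      rw [lin_single, ← mul_smul, xpow, id, X_pow_eq_monomial, monomial_mul, one_mul,
        add_tsub_cancel_of_le (Finsupp.single_le_iff.mpr (not_lt.mp hj))]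
  have hsurj : Function.Surjective Φ := by
    intro x
    obtain ⟨v, rfl⟩ := Submodule.Quotient.mk_surjective _ x
    obtain ⟨p, rfl⟩ := (Submodule.mem_span_range_iff_exists_fun _).mp
      (hg ▸ Submodule.mem_top (x := v))
    rw [← LinearMap.mem_range, ← Submodule.mkQ_apply, map_sum]
    refine Submodule.sum_mem _ fun i _ => ?_
    rw [(p i).as_sum, Finset.sum_smul, map_sum]
    exact Submodule.sum_mem _ fun d _ => hmono i d _
  refine (Module.length_le_of_surjective Φ hsurj).trans ?_
  simp [Fintype.card_pi]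

theorem length_H1_le [Module.Finite (MvPolynomial σ k) V] :
    ∃ n : ℕ, ∀ e : σ → ℕ,
      Module.length k (H1 (xpow k (id : σ → σ) e) V) ≤ n * (∏ i, e i : ℕ) := by
  obtain ⟨t, π, hπ⟩ := Module.Finite.exists_fin' (MvPolynomial σ k) V
  let F := Fin t → MvPolynomial σ k
  obtain ⟨n, g, hg⟩ := Module.Finite.exists_fin (R := MvPolynomial σ k) (M := LinearMap.ker π)
  refine ⟨n, fun e => ?_⟩
  set a := xpow k (id : σ → σ) e
  let S : Submodule (MvPolynomial σ k) (σ → F) := (LinearMap.ker π).comap (lin a F)
  let Q := LinearMap.ker π ⧸ LinearMap.range (lin a (LinearMap.ker π))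
  let f₁ : S →ₗ[MvPolynomial σ k] Q :=
    (LinearMap.range (lin a (LinearMap.ker π))).mkQ ∘ₗ
      LinearMap.codRestrict _ (lin a F ∘ₗ S.subtype) fun u => u.2
  let f₂ : S →ₗ[MvPolynomial σ k] H1 a V :=
    cls a V ∘ₗ LinearMap.codRestrict _ (π.compLeft σ ∘ₗ S.subtype) fun u => by
      rw [LinearMap.mem_ker]
      exact (lin_map a π _).trans u.2
  have hf₂ : Function.Surjective f₂ := by
    intro x
    obtain ⟨v, rfl⟩ := Submodule.Quotient.mk_surjective _ x
    choose u hu using fun i => hπ ((v : σ → V) i)
    have hv : (π.compLeft σ) u = (v : σ → V) := funext hu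
    refine ⟨⟨u, ?_⟩, ?_⟩
    · show π (lin a F u) = 0
      rw [← lin_map, hv]
      exact v.2
    · exact congrArg Submodule.Quotient.mk (Subtype.ext hv)
  have hker : LinearMap.ker f₁ ≤ LinearMap.ker f₂ := by
    intro u hu
    rw [LinearMap.mem_ker] at hu ⊢
    obtain ⟨κ, hκ⟩ := (Submodule.Quotient.mk_eq_zero _).mp hu
    let κ' : σ → F := fun i => (κ i : F)
    have hk : lin a F κ' = lin a F (u : σ → F) := by
      rw [show κ' = (LinearMap.ker π).subtype.compLeft σ κ from rfl, lin_map]
      exact congrArg Subtype.val hκ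
    have hb : (u : σ → F) - κ' ∈ bdry a F := by
      refine exact_free t σ id e Function.injective_id ?_
      rw [LinearMap.mem_ker, map_sub, hk, sub_self]
    have hb' := bdry_map a π hb
    refine (cls_eq_zero a _).mpr ?_
    have hz : π.compLeft σ κ' = 0 := funext fun i => (κ i).2
    rwa [map_sub, hz, sub_zero] at hb'
  let G : LinearMap.range f₁ →ₗ[MvPolynomial σ k] H1 a V :=
    (LinearMap.ker f₁).liftQ f₂ hker ∘ₗ f₁.quotKerEquivRange.symm.toLinearMap
  have hG : Function.Surjective G := by
    have hl : Function.Surjective ((LinearMap.ker f₁).liftQ f₂ hker) := fun x => by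
      obtain ⟨u, hu⟩ := hf₂ x
      exact ⟨Submodule.Quotient.mk u, hu⟩
    intro x
    obtain ⟨y, hy⟩ := hl x
    exact ⟨f₁.quotKerEquivRange y, by simp [G, hy]⟩
  calc Module.length k (H1 a V) ≤ Module.length k (LinearMap.range f₁) :=
        Module.length_le_of_surjective (G.restrictScalars k) hG
    _ ≤ Module.length k Q :=
        Module.length_le_of_injective ((LinearMap.range f₁).subtype.restrictScalars k)
          (Submodule.subtype_injective _)
    _ ≤ _ := length_quot_le g hg e

end Bound

section Exponents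

variable {k : Type*} [Field k] {σ : Type} [Fintype σ] [DecidableEq σ]
variable {V : Type*} [AddCommGroup V] [Module (MvPolynomial σ k) V] [Module k V]
  [IsScalarTower k (MvPolynomial σ k) V]

/-- Multiplication by `y` factors through a finite free module. -/
def Factors {A : Type*} [CommRing A] (V : Type*) [AddCommGroup V] [Module A V] (y : A) : Prop :=
  ∃ (n : ℕ) (s : V →ₗ[A] (Fin n → A)) (π : (Fin n → A) →ₗ[A] V), π ∘ₗ s = y • LinearMap.id

theorem length_exponent_le (j : σ) (hj : Factors V (X j : MvPolynomial σ k)) (e : σ → ℕ) :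
    Module.length k (H1 (xpow k (id : σ → σ) e) V) ≤
      Module.length k (H1 (xpow k (id : σ → σ) (Function.update e j 1)) V) := by
  obtain ⟨n, s, π, hπ⟩ := hj
  let E : Option {i // i ≠ j} ≃ σ := Equiv.optionSubtypeNe j
  rw [← length_reindex k E (xpow k (id : σ → σ) e), ← length_reindex k E (xpow k (id : σ → σ) (Function.update e j 1))]
  set a := (xpow k (id : σ → σ) e) ∘ E with ha
  set b := (xpow k (id : σ → σ) (Function.update e j 1)) ∘ E with hb
  have hab : a ∘ some = b ∘ some := by
    funext i
    simp [ha, hb, E, xpow, Function.update_of_ne i.2]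
  have hbn : b none = X j := by simp [hb, E, xpow]
  have han : a none = X j ^ e j := by simp [ha, E, xpow]
  have hrest : a ∘ some =
      xpow k (Subtype.val : {i // i ≠ j} → σ) (fun i => e i.1) := by
    funext i; simp [ha, E, xpow]
  have hπ' : ∀ v, π (s v) = (X j : MvPolynomial σ k) • v := fun v => by
    simpa using LinearMap.congr_fun hπ v
  have hkill : ∀ x : H1 (b ∘ some) V, b none • x = 0 := by
    intro x
    obtain ⟨v, rfl⟩ := Submodule.Quotient.mk_surjective _ x
    rw [hbn, ← Submodule.Quotient.mk_smul]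
    refine (cls_eq_zero _ _).mpr ?_
    have hv : lin (b ∘ some) V v = 0 := v.2
    show X j • (v : {i // i ≠ j} → V) ∈ bdry (b ∘ some) V
    generalize (v : {i // i ≠ j} → V) = v' at hv ⊢
    have h1 : s.compLeft _ v' ∈ bdry (b ∘ some) (Fin n → MvPolynomial σ k) := by
      rw [← hab, hrest]
      refine exact_free n _ _ _ Subtype.val_injective ?_
      rw [LinearMap.mem_ker, lin_map, ← hrest, hab, hv, map_zero]
    have h2 := bdry_map _ π h1
    convert h2 using 1
    funext i
    simp [compLeft_apply', hπ']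
  rw [length_option_eq k b hkill]
  refine (length_option_le k a).trans (add_le_add (le_of_eq ?_) ?_)
  · rw [hab]
  · have hle : ∀ v : V, a none • v ∈ LinearMap.range (lin (a ∘ some) V) →
        b none • v ∈ LinearMap.range (lin (b ∘ some) V) := by
      intro v hv
      obtain ⟨u, hu⟩ := hv
      have h0 : (X j : MvPolynomial σ k) ^ e j • s v ∈ LinearMap.range
          (lin (xpow k (Subtype.val : {i // i ≠ j} → σ) fun i => e i.1)
            (Fin n → MvPolynomial σ k)) := by
        refine ⟨s.compLeft _ u, ?_⟩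
        rw [lin_map, ← hrest, hu, map_smul, han]
      obtain ⟨w, hw⟩ := colon_free _ _ j (fun i => i.2) _ _ h0
      refine ⟨π.compLeft _ w, ?_⟩
      rw [← hab, hrest, lin_map, hw, hπ', hbn]
    have hR : LinearMap.range (lin (a ∘ some) V) = LinearMap.range (lin (b ∘ some) V) := by
      rw [hab]
    let Q : (V ⧸ LinearMap.range (lin (a ∘ some) V)) ≃ₗ[MvPolynomial σ k]
        (V ⧸ LinearMap.range (lin (b ∘ some) V)) := Submodule.quotEquivOfEq _ _ hR
    let T : colon1 (M := V) a →ₗ[MvPolynomial σ k] colon1 (M := V) b :=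
      LinearMap.codRestrict _ (Q.toLinearMap ∘ₗ (colon1 (M := V) a).subtype) fun x => by
        obtain ⟨v, hv⟩ := Submodule.Quotient.mk_surjective _ x.1
        have hx := x.2
        rw [LinearMap.mem_ker, LinearMap.lsmul_apply, ← hv, ← Submodule.Quotient.mk_smul,
          Submodule.Quotient.mk_eq_zero] at hx
        rw [LinearMap.mem_ker, LinearMap.lsmul_apply]
        show b none • Q x.1 = 0
        rw [← hv]
        show b none • Submodule.Quotient.mk v = 0
        rw [← Submodule.Quotient.mk_smul, Submodule.Quotient.mk_eq_zero]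
        exact hle v hx
    exact Module.length_le_of_injective (T.restrictScalars k)
      fun x y h => Subtype.ext (Q.injective (congrArg Subtype.val h))

/-- If multiplication by the variables in `S` factors through free modules, the homology with
respect to the `q`-th powers of all variables is `O(q ^ #(σ \ S))`. -/
theorem length_frobenius_le [Module.Finite (MvPolynomial σ k) V] (S : Finset σ)
    (hS : ∀ j ∈ S, Factors V (X j : MvPolynomial σ k)) :
    ∃ C : ℕ, ∀ q : ℕ, Module.length k (H1 (xpow k (id : σ → σ) fun _ => q) V) ≤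
      C * (q ^ Sᶜ.card : ℕ) := by
  obtain ⟨n, hn⟩ := length_H1_le (k := k) (σ := σ) (V := V)
  refine ⟨n, fun q => ?_⟩
  have key : ∀ T, T ⊆ S → Module.length k (H1 (xpow k (id : σ → σ) fun _ => q) V) ≤
      Module.length k (H1 (xpow k (id : σ → σ) fun i => if i ∈ T then 1 else q) V) := by
    intro T
    induction T using Finset.induction_on with
    | empty => intro _; simp; rfl
    | insert j T hjT ih =>
      intro hT
      rw [Finset.insert_subset_iff] at hT
      refine (ih hT.2).trans ((length_exponent_le j (hS j hT.1) _).trans (le_of_eq ?_))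
      have : Function.update (fun i => if i ∈ T then 1 else q) j 1 =
          fun i => if i ∈ insert j T then 1 else q := by
        funext i
        rcases eq_or_ne i j with rfl | h
        · simp
        · simp [h]
      rw [this]
  refine (key S subset_rfl).trans ((hn _).trans (le_of_eq ?_))
  rw [Finset.prod_ite, Finset.prod_const_one, one_mul, Finset.prod_const]
  congr 2
  congr 1
  congr 1
  ext i; simp

end Exponents

end Vale.Agent.P190
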