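import Mathlib

/-!
The completion of a local ring that is module-finite over polynomials modulo parameters is
Noetherian, of dimension at most the number of parameters.
-/

namespace Vale.Agent.P190

open IsLocalRing Submodule

theorem isPrecomplete_pi {T : Type*} [CommRing T] {I : Ideal T} [IsPrecomplete I T] {n : ℕ} :
    IsPrecomplete I (Fin n → T) := by
  constructor
  intro f hf
  have hcomp : ∀ i, ∀ {a b : ℕ}, a ≤ b → f a i ≡ f b i [SMOD (I ^ a • ⊤ : Submodule T T)] := by
    intro i a b hab
    have h := SModEq.sub_mem.mp (hf hab)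
    rw [SModEq.sub_mem]
    have h' : (LinearMap.proj i : (Fin n → T) →ₗ[T] T) (f a - f b) ∈
        (I ^ a • ⊤ : Submodule T (Fin n → T)).map (LinearMap.proj i) := Submodule.mem_map_of_mem h
    rw [Submodule.map_smul''] at h'
    exact Submodule.smul_mono le_rfl le_top h'
  choose L hL using fun i => IsPrecomplete.prec (I := I) inferInstance
    (f := fun a => f a i) (hcomp i)
  refine ⟨L, fun a => ?_⟩
  rw [SModEq.sub_mem, ← Finset.univ_sum_single (f a - L)]
  refine Submodule.sum_mem _ fun i _ => ?_
  have h := SModEq.sub_mem.mp (hL i a)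
  have h' : (LinearMap.single T (fun _ : Fin n => T) i) (f a i - L i) ∈
      (I ^ a • ⊤ : Submodule T T).map (LinearMap.single T (fun _ : Fin n => T) i) :=
    Submodule.mem_map_of_mem h
  rw [Submodule.map_smul''] at h'
  exact Submodule.smul_mono le_rfl le_top h'

variable {k : Type} [Field k] {d : ℕ} {S : Type} [CommRing S] [IsLocalRing S] [IsNoetherianRing S]

theorem completion_noetherian (φ : MvPolynomial (Fin d) k →+* S)
    (hφ : ∀ i, φ (MvPolynomial.X i) ∈ maximalIdeal S) (N n : ℕ)
    (hN : maximalIdeal S ^ N ≤ (MvPolynomial.idealOfVars (Fin d) k).map φ) (g : Fin n → S)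
    (hgen : ∀ s, ∃ c : Fin n → MvPolynomial (Fin d) k,
      s - ∑ i, φ (c i) * g i ∈ (MvPolynomial.idealOfVars (Fin d) k).map φ) :
    IsNoetherianRing (AdicCompletion (maximalIdeal S) S) ∧
      ringKrullDim (AdicCompletion (maximalIdeal S) S) ≤ d := by
  set m := maximalIdeal S
  set I0 := MvPolynomial.idealOfVars (Fin d) k with hI0
  set T := AdicCompletion I0 (MvPolynomial (Fin d) k) with hT
  set S' := AdicCompletion m S with hS'
  have hI0m : I0.map φ ≤ m := by
    rw [Ideal.map_le_iff_le_comap, hI0, MvPolynomial.idealOfVars, Ideal.span_le]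
    rintro _ ⟨i, rfl⟩
    exact hφ i
  have fgI : I0.FG := IsNoetherian.noetherian _
  have : IsNoetherianRing T :=
    isNoetherianRing_of_ringEquiv _ (MvPowerSeries.toAdicCompletionAlgEquiv (Fin d) k).toRingEquiv
  -- the map of completions
  let f : (a : ℕ) → T →+* S ⧸ m ^ a := fun a =>
    (Ideal.quotientMap (m ^ a) φ (by
      rw [← Ideal.map_le_iff_le_comap, Ideal.map_pow]
      exact Ideal.pow_right_mono hI0m a)).comp (AdicCompletion.evalₐ I0 a).toRingHom
  have hf : ∀ {a b : ℕ} (hle : a ≤ b), (Ideal.Quotient.factorPow m hle).comp (f b) = f a := by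
    intro a b hle
    refine RingHom.ext fun x => ?_
    obtain ⟨u, rfl⟩ := AdicCompletion.mk_surjective I0 _ x
    have hu := SModEq.sub_mem.mp (u.2 hle)
    rw [smul_eq_mul, Ideal.mul_top] at hu
    simp only [f, RingHom.comp_apply, AlgHom.toRingHom_eq_coe, RingHom.coe_coe]
    have e : ∀ c, AdicCompletion.evalₐ I0 c (AdicCompletion.mk I0 _ u) =
        Ideal.Quotient.mk _ (u.1 c) := fun c => AdicCompletion.evalₐ_mk _ _ _
    rw [e a, e b]
    simp only [Ideal.quotientMap_mk, Ideal.Quotient.factor_mk]
    rw [eq_comm, Ideal.Quotient.eq, ← map_sub]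
    exact Ideal.pow_right_mono hI0m a (Ideal.map_pow φ I0 a ▸ Ideal.mem_map_of_mem φ hu)
  let Φ : T →+* S' := AdicCompletion.liftRingHom m f hf
  have hΦ : ∀ y, Φ (algebraMap (MvPolynomial (Fin d) k) T y) = algebraMap S S' (φ y) := by
    intro y
    refine AdicCompletion.ext_evalₐ fun a => ?_
    rw [AdicCompletion.evalₐ_liftRingHom]
    simp [f, AlgHom.commutes, Ideal.Quotient.algebraMap_eq]
    exact ((AdicCompletion.evalₐ m a).commutes (φ y)).symm
  set J := I0.map (algebraMap (MvPolynomial (Fin d) k) T)
  have hJ : J.map Φ = (I0.map φ).map (algebraMap S S') := by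
    rw [Ideal.map_map, Ideal.map_map]
    congr 1
  have hJm : J.map Φ ≤ maximalIdeal S' := by
    rw [hJ, AdicCompletion.maximalIdeal_eq_map]
    exact Ideal.map_mono hI0m
  let _ : Algebra T S' := Φ.toAlgebra
  have hcomp : IsAdicComplete J T := AdicCompletion.isAdicComplete_self _ fgI
  have : IsPrecomplete J T := hcomp.toIsPrecomplete
  have : IsPrecomplete J (Fin n → T) := isPrecomplete_pi
  have hauS : IsHausdorff (maximalIdeal S') S' :=
    (inferInstance : IsAdicComplete (maximalIdeal S') S').toIsHausdorff
  have : IsHausdorff J S' := by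
    refine ⟨fun x hx => hauS.haus' x fun a => ?_⟩
    have h := hx a
    rw [SModEq.zero] at h ⊢
    rw [Ideal.smul_top_eq_map, Submodule.restrictScalars_mem, Ideal.map_pow] at h
    rw [smul_eq_mul, Ideal.mul_top]
    exact Ideal.pow_right_mono hJm a h
  let F : (Fin n → T) →ₗ[T] S' := Fintype.linearCombination T fun i => algebraMap S S' (g i)
  have hsurj : Function.Surjective F := by
    refine surjective_of_mkQ_comp_surjective (I := J) fun z => ?_
    obtain ⟨y, rfl⟩ := Submodule.mkQ_surjective _ z
    -- approximate `y` by an element of `S`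
    obtain ⟨s, hs⟩ := Ideal.Quotient.mk_surjective (AdicCompletion.evalₐ m N y)
    have hsy : y - algebraMap S S' s ∈ (I0.map φ).map (algebraMap S S') := by
      refine Ideal.map_mono hN ?_
      have hker : y - algebraMap S S' s ∈
          (m ^ N • ⊤ : Submodule S S') := by
        rw [AdicCompletion.pow_smul_top_eq_ker_eval (IsNoetherian.noetherian m)]
        have : AdicCompletion.evalₐ m N (y - algebraMap S S' s) = 0 := by
          rw [map_sub, ← hs, AlgHom.commutes]
          simp
        rw [LinearMap.mem_ker]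
        have e : Ideal.Quotient.factor (show (m ^ N : Ideal S) ≤ m ^ N • ⊤ by simp)
            (AdicCompletion.evalₐ m N (y - algebraMap S S' s)) = 0 := by rw [this, map_zero]
        simpa [AdicCompletion.evalₐ, AdicCompletion.eval] using e
      rwa [Ideal.smul_top_eq_map, Submodule.restrictScalars_mem] at hker
    obtain ⟨c, hc⟩ := hgen s
    refine ⟨fun i => algebraMap _ T (c i), ?_⟩
    simp only [LinearMap.comp_apply, Submodule.mkQ_apply, Submodule.Quotient.eq]
    rw [Ideal.smul_top_eq_map, Submodule.restrictScalars_mem]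
    show F _ - y ∈ J.map Φ
    rw [hJ]
    have : F (fun i => algebraMap _ T (c i)) = algebraMap S S' (∑ i, φ (c i) * g i) := by
      simp only [F, Fintype.linearCombination_apply, Algebra.smul_def, map_sum, map_mul,
        RingHom.algebraMap_toAlgebra, hΦ]
    rw [this, show algebraMap S S' (∑ i, φ (c i) * g i) - y =
      -(algebraMap S S' (s - ∑ i, φ (c i) * g i)) - (y - algebraMap S S' s) by
        rw [map_sub]; ring]
    exact sub_mem (neg_mem (Ideal.mem_map_of_mem _ hc)) hsy
  have : Module.Finite T S' := Module.Finite.of_surjective F hsurj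
  have hnoeth : IsNoetherianRing S' := IsNoetherianRing.of_finite T S'
  refine ⟨hnoeth, ?_⟩
  rw [← IsLocalRing.maximalIdeal_height_eq_ringKrullDim]
  set x : Fin d → S' := fun i => algebraMap S S' (φ (MvPolynomial.X i))
  classical
  have hspan : (I0.map φ).map (algebraMap S S') = Ideal.span (Set.range x) := by
    rw [hI0, MvPolynomial.idealOfVars, Ideal.map_span, Ideal.map_span, ← Set.range_comp,
      ← Set.range_comp]
    rfl
  have hmin : maximalIdeal S' ∈
      (Ideal.span ((Finset.univ.image x : Finset S') : Set S')).minimalPrimes := by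
    rw [Finset.coe_image, Finset.coe_univ, Set.image_univ, ← hspan]
    refine ⟨⟨inferInstance, hJ ▸ hJm⟩, fun q hq _ => ?_⟩
    have : maximalIdeal S' ^ N ≤ q := by
      rw [AdicCompletion.maximalIdeal_eq_map, ← Ideal.map_pow]
      exact (Ideal.map_mono hN).trans hq.2
    rcases Nat.eq_zero_or_pos N with rfl | hN0
    · rw [pow_zero, Ideal.one_eq_top, top_le_iff] at this
      exact absurd this hq.1.ne_top
    · exact (hq.1.pow_le_iff hN0.ne').mp this
  have h := Ideal.height_le_card_of_mem_minimalPrimes_span_finset hmin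
  refine (WithBot.coe_le_coe.mpr (h.trans (Nat.cast_le.mpr (Finset.card_image_le.trans
    (by simp : (Finset.univ : Finset (Fin d)).card ≤ d))))).trans le_rfl

end Vale.Agent.P190
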