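import Mathlib

/-!
Coordinates adapted to an ideal of a polynomial ring: a finite free extension `k[σ] → k[x]` in
which the variables in `S` land in the ideal and the others are algebraically independent modulo it.
-/

namespace Vale.Agent.P190

/-- `g` makes its target a finite free module over its source. -/
def FreeHom {A B : Type*} [CommRing A] [CommRing B] (g : A → B) : Prop :=
  ∃ (n : ℕ) (b : Fin n → B), Function.Bijective fun c : Fin n → A => ∑ i, g (c i) * b i

section FreeHom

variable {A B C : Type*} [CommRing A] [CommRing B] [CommRing C]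

theorem FreeHom.of_equiv (g : A ≃+* B) : FreeHom g := by
  refine ⟨1, fun _ => 1, ?_⟩
  constructor
  · intro c c' h
    funext i
    rw [Subsingleton.elim i 0]
    simpa using h
  · intro b
    exact ⟨fun _ => g.symm b, by simp⟩

theorem FreeHom.comp {g : B →+* C} {f : A →+* B} (hg : FreeHom g) (hf : FreeHom f) :
    FreeHom (g.comp f) := by
  obtain ⟨m, c, hc⟩ := hg
  obtain ⟨n, b, hb⟩ := hf
  let e : Fin (m * n) ≃ Fin m × Fin n := finProdFinEquiv.symm
  refine ⟨m * n, fun i => g (b (e i).2) * c (e i).1, ?_⟩
  have key : ∀ u : Fin (m * n) → A, ∑ i, g.comp f (u i) * (g (b (e i).2) * c (e i).1) =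
      ∑ j, g (∑ l, f (u (e.symm (j, l))) * b l) * c j := by
    intro u
    rw [← e.symm.sum_comp, Fintype.sum_prod_type]
    refine Finset.sum_congr rfl fun j _ => ?_
    rw [map_sum, Finset.sum_mul]
    refine Finset.sum_congr rfl fun l _ => ?_
    simp [mul_assoc]
  constructor
  · intro u v huv
    simp only [key] at huv
    have h1 := hc.1 huv
    funext i
    have h2 : (fun l => u (e.symm ((e i).1, l))) = fun l => v (e.symm ((e i).1, l)) :=
      hb.1 (congrFun h1 (e i).1)
    simpa using congrFun h2 (e i).2
  · intro x
    obtain ⟨v, rfl⟩ := hc.2 x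
    choose w hw using fun j => hb.2 (v j)
    refine ⟨fun i => w (e i).1 (e i).2, ?_⟩
    simp only [key, Equiv.apply_symm_apply]
    exact Finset.sum_congr rfl fun j _ => by rw [show (∑ l, f (w j l) * b l) = v j from hw j]

theorem FreeHom.injective [Nontrivial B] {g : A →+* B} (hg : FreeHom g) :
    Function.Injective g := by
  obtain ⟨n, b, hb⟩ := hg
  refine (injective_iff_map_eq_zero g).mpr fun a ha => ?_
  rcases Nat.eq_zero_or_pos n with rfl | hn
  · obtain ⟨c, hc⟩ := hb.2 1
    simp at hc
  · have h : (fun i => if i = ⟨0, hn⟩ then a else 0) = (fun _ : Fin n => (0 : A)) := by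
      refine hb.1 ?_
      simp [apply_ite g, ha]
    simpa using congrFun h ⟨0, hn⟩

theorem FreeHom.module {g : A →+* B} (hg : FreeHom g) :
    letI := g.toAlgebra
    Module.Free A B ∧ Module.Finite A B := by
  letI := g.toAlgebra
  obtain ⟨n, b, hb⟩ := hg
  have hb' : Function.Bijective (Fintype.linearCombination A b) := by
    convert hb
    simp [Fintype.linearCombination_apply, Algebra.smul_def, RingHom.algebraMap_toAlgebra]
  let e : (Fin n → A) ≃ₗ[A] B := LinearEquiv.ofBijective _ hb'
  exact ⟨Module.Free.of_equiv e, Module.Finite.equiv e⟩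

open Polynomial in
theorem FreeHom.mapPoly {f : A →+* B} (hf : FreeHom f) : FreeHom (Polynomial.mapRingHom f) := by
  classical
  obtain ⟨n, b, hb⟩ := hf
  refine ⟨n, fun i => Polynomial.C (b i), ?_⟩
  have key : ∀ (c : Fin n → A[X]) (l : ℕ),
      (∑ i, mapRingHom f (c i) * Polynomial.C (b i)).coeff l = ∑ i, f ((c i).coeff l) * b i := by
    intro c l
    simp [finsetSum_coeff, coeff_map]
  constructor
  · intro u v huv
    funext i
    ext l
    have h := congrArg (fun q : B[X] => q.coeff l) huv
    simp only [key] at h
    exact congrFun (hb.1 h) i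
  · intro x
    choose w hw using fun l => hb.2 (x.coeff l)
    refine ⟨fun i => ∑ l ∈ x.support, Polynomial.monomial l (w l i), ?_⟩
    ext l
    simp only [key, finsetSum_coeff, coeff_monomial, Finset.sum_ite_eq']
    by_cases hl : l ∈ x.support
    · simp only [hl, if_true]
      exact hw l
    · simp [hl, notMem_support_iff.mp hl]

open Polynomial in
theorem FreeHom.compMonic (p : A[X]) (hp : p.Monic) (hne : p ≠ 1) :
    FreeHom (Polynomial.compRingHom p) := by
  classical
  have : Nontrivial A := by
    by_contra h
    rw [not_nontrivial_iff_subsingleton] at h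
    exact hne (Subsingleton.elim _ _)
  refine ⟨p.natDegree, fun i => Polynomial.X ^ (i : ℕ), ?_⟩
  simp only [coe_compRingHom]
  have hlow : ∀ a : Fin p.natDegree → A,
      (∑ i, Polynomial.C (a i) * Polynomial.X ^ (i : ℕ)).degree < p.degree := by
    intro a
    refine lt_of_le_of_lt (degree_sum_le _ _) ((Finset.sup_lt_iff ?_).mpr fun i _ => ?_)
    · exact bot_lt_iff_ne_bot.mpr (degree_ne_bot.mpr hp.ne_zero)
    · refine lt_of_le_of_lt (degree_C_mul_X_pow_le _ _) ?_
      rw [degree_eq_natDegree hp.ne_zero]
      exact_mod_cast i.2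
  constructor
  · suffices h : ∀ (N : ℕ) (c : Fin p.natDegree → A[X]), (∀ i l, N ≤ l → (c i).coeff l = 0) →
        ∑ i, (c i).comp p * Polynomial.X ^ (i : ℕ) = 0 → c = 0 by
      intro u v huv
      refine sub_eq_zero.mp (h (∑ i, (((u - v) i).natDegree + 1)) _ (fun i l hl => ?_) ?_)
      · refine coeff_eq_zero_of_natDegree_lt ?_
        have := Finset.single_le_sum (f := fun i => ((u - v) i).natDegree + 1)
          (fun _ _ => Nat.zero_le _) (Finset.mem_univ i)
        omega
      · simp only [Pi.sub_apply, sub_comp, sub_mul, Finset.sum_sub_distrib]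
        exact sub_eq_zero.mpr huv
    intro N
    induction N with
    | zero => intro c hc _; funext i; ext l; exact hc i l (Nat.zero_le _)
    | succ N ih =>
      intro c hc h0
      have hdec : ∀ i, (c i).comp p * Polynomial.X ^ (i : ℕ) =
          p * ((c i).divX.comp p * Polynomial.X ^ (i : ℕ)) +
            Polynomial.C ((c i).coeff 0) * Polynomial.X ^ (i : ℕ) := by
        intro i
        conv_lhs => rw [← divX_mul_X_add (c i)]
        simp only [add_comp, mul_comp, X_comp, C_comp]
        ring
      simp only [hdec, Finset.sum_add_distrib, ← Finset.mul_sum] at h0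
      have hG : ∑ i, (c i).divX.comp p * Polynomial.X ^ (i : ℕ) = 0 := by
        by_contra hG
        refine hp.not_dvd_of_degree_lt ?_ (hlow fun i => (c i).coeff 0)
          ⟨-(∑ i, (c i).divX.comp p * Polynomial.X ^ (i : ℕ)), ?_⟩
        · intro h
          rw [h, add_zero] at h0
          exact hG ((hp.isRegular.left).eq_iff.mp (h0.trans (mul_zero p).symm))
        · rw [mul_neg]; exact eq_neg_of_add_eq_zero_right h0
      rw [hG, mul_zero, zero_add] at h0
      have hd := ih (fun i => (c i).divX) (fun i l hl => by
        rw [coeff_divX]; exact hc i (l + 1) (by omega)) hG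
      funext i
      have hi : (c i).coeff 0 = 0 := by
        have := congrArg (fun q : A[X] => q.coeff i) h0
        simpa [finsetSum_coeff, coeff_C_mul, coeff_X_pow, Fin.val_inj] using this
      rw [← divX_mul_X_add (c i), show (c i).divX = 0 from congrFun hd i, hi]
      simp
  · suffices h : ∀ (N : ℕ) (x : A[X]), x.natDegree ≤ N →
        ∃ c : Fin p.natDegree → A[X], ∑ i, (c i).comp p * Polynomial.X ^ (i : ℕ) = x from
      fun x => h _ x le_rfl
    intro N
    induction N using Nat.strong_induction_on with
    | _ N ih =>
      intro x hx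
      have hrem : ∀ r : A[X], r.degree < p.degree →
          ∃ c : Fin p.natDegree → A[X], ∑ i, (c i).comp p * Polynomial.X ^ (i : ℕ) = r := by
        intro r hr
        refine ⟨fun i => Polynomial.C (r.coeff i), ?_⟩
        simp only [C_comp]
        ext l
        simp only [finsetSum_coeff, coeff_C_mul, coeff_X_pow, mul_ite, mul_one, mul_zero]
        by_cases hl : l < p.natDegree
        · rw [Finset.sum_eq_single ⟨l, hl⟩ (fun b _ hb => if_neg fun h => hb (Fin.ext h.symm))
            (fun h => absurd (Finset.mem_univ _) h)]
          simp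
        · rw [Finset.sum_eq_zero (fun (b : Fin p.natDegree) _ =>
            if_neg fun (h : l = (b : ℕ)) => hl (h ▸ b.2))]
          refine (coeff_eq_zero_of_degree_lt (lt_of_lt_of_le hr ?_)).symm
          exact degree_le_natDegree.trans (by exact_mod_cast not_lt.mp hl)
      by_cases hlt : x.degree < p.degree
      · exact hrem x hlt
      have hD : p.natDegree ≤ x.natDegree := natDegree_le_natDegree (not_lt.mp hlt)
      rcases Nat.eq_zero_or_pos p.natDegree with h0 | h0
      · exfalso
        have h1 : p = 1 := hp.natDegree_eq_zero.mp h0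
        exact hne h1
      have hdiv : (x /ₘ p).natDegree < N := by
        rw [natDegree_divByMonic _ hp]; omega
      obtain ⟨c, hc⟩ := ih _ hdiv _ le_rfl
      obtain ⟨c', hc'⟩ := hrem _ (degree_modByMonic_lt x hp)
      refine ⟨fun i => Polynomial.X * c i + c' i, ?_⟩
      simp only [add_comp, mul_comp, X_comp, add_mul, Finset.sum_add_distrib, mul_assoc,
        ← Finset.mul_sum, hc, hc']
      rw [add_comm]
      exact modByMonic_add_div x p

end FreeHom

end Vale.Agent.P190
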