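import Vale.Agent.P190.Bound

/-!
Elements through which multiplication on a module factors through a free module, and where they
exist: at primes of height at most one, and at primes of height two for modules reflexive in codimension one.
-/

namespace Vale.Agent.P190

open Pointwise

section FactorIdeal

variable {A : Type*} [CommRing A] {V : Type*} [AddCommGroup V] [Module A V]

/-- The ideal of elements acting on `V` through a finite free module. -/
noncomputable def factorIdeal (A V : Type*) [CommRing A] [AddCommGroup V] [Module A V] : Ideal A :=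
  (Submodule.span A {f : Module.End A V | ∃ (φ : V →ₗ[A] A) (m : V), φ.smulRight m = f}).comap
    (LinearMap.toSpanSingleton A (Module.End A V) LinearMap.id)

theorem factors_of_mem {a : A} (h : a ∈ factorIdeal A V) : Factors V a := by
  obtain ⟨n, c, g, hsum⟩ := Submodule.mem_span_set'.mp (Submodule.mem_comap.mp h)
  choose φ m hm using fun i => (g i).2
  refine ⟨n, LinearMap.pi fun i => c i • φ i, Fintype.linearCombination A m, ?_⟩
  refine LinearMap.ext fun v => ?_
  have h1 := LinearMap.congr_fun hsum v
  simp only [LinearMap.toSpanSingleton_apply] at h1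
  rw [LinearMap.comp_apply, Fintype.linearCombination_apply]
  refine Eq.trans ?_ h1
  rw [LinearMap.sum_apply]
  refine Finset.sum_congr rfl fun i _ => ?_
  rw [LinearMap.pi_apply, LinearMap.smul_apply, LinearMap.smul_apply, ← hm i,
    LinearMap.smulRight_apply, smul_eq_mul, mul_smul]

theorem mem_factorIdeal {ι : Type*} [Fintype ι] {a : A} (φ : ι → V →ₗ[A] A) (m : ι → V)
    (h : ∀ v, ∑ i, φ i v • m i = a • v) : a ∈ factorIdeal A V := by
  have e : (∑ i, (φ i).smulRight (m i)) = a • (LinearMap.id : Module.End A V) := by
    refine LinearMap.ext fun v => ?_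
    simp [LinearMap.sum_apply, h]
  rw [factorIdeal, Submodule.mem_comap, LinearMap.toSpanSingleton_apply, ← e]
  exact Submodule.sum_mem _ fun i _ => Submodule.subset_span ⟨φ i, m i, rfl⟩

end FactorIdeal

section Localization

variable {A : Type*} [CommRing A] [IsDomain A] {V : Type*} [AddCommGroup V] [Module A V]
  [Module.Finite A V]

/-- Linear maps from a finite module to a localisation clear denominators. -/
theorem exists_lift_mul (S : Submonoid A) (hS : S ≤ nonZeroDivisors A) {ι : Type*} [Finite ι]
    (g : ι → V →ₗ[A] Localization S) :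
    ∃ t ∈ S, ∃ φ : ι → V →ₗ[A] A, ∀ i v, algebraMap A (Localization S) (φ i v) = t • g i v := by
  obtain ⟨n, gen, hgen⟩ := Module.Finite.exists_fin (R := A) (M := V)
  obtain ⟨t, ht⟩ := IsLocalization.exist_integer_multiples_of_finite S
    (fun z : ι × Fin n => g z.1 (gen z.2))
  have hinj : Function.Injective (Algebra.linearMap A (Localization S)) :=
    IsLocalization.injective (Localization S) hS
  have hrange : ∀ i v, (t : A) • g i v ∈ LinearMap.range (Algebra.linearMap A (Localization S)) := by
    intro i v
    have hv : v ∈ Submodule.span A (Set.range gen) := hgen ▸ Submodule.mem_top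
    induction hv using Submodule.span_induction with
    | mem x hx =>
      obtain ⟨l, rfl⟩ := hx
      obtain ⟨a, ha⟩ := ht (i, l)
      exact ⟨a, ha⟩
    | zero => simp
    | add x y _ _ hx hy => rw [map_add, smul_add]; exact add_mem hx hy
    | smul c x _ hx => rw [map_smul, smul_comm]; exact Submodule.smul_mem _ _ hx
  refine ⟨t, t.2, fun i => (LinearEquiv.ofInjective _ hinj).symm.toLinearMap ∘ₗ
    LinearMap.codRestrict _ ((t : A) • g i) (hrange i), fun i v => ?_⟩
  exact congrArg Subtype.val ((LinearEquiv.ofInjective _ hinj).apply_symm_apply _)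

variable [Module.IsTorsionFree A V]

theorem mkLinearMap_injective (S : Submonoid A) (hS : S ≤ nonZeroDivisors A) :
    Function.Injective (LocalizedModule.mkLinearMap S V) := by
  refine (injective_iff_map_eq_zero _).mpr fun v hv => ?_
  obtain ⟨u, hu⟩ := (IsLocalizedModule.eq_zero_iff S (LocalizedModule.mkLinearMap S V)).mp hv
  exact (smul_eq_zero_iff_right (nonZeroDivisors.ne_zero (hS u.2))).mp hu

/-- If `V` is free at the prime `P`, some element outside `P` acts through a free module. -/
theorem exists_mem_of_free (P : Ideal A) [P.IsPrime]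
    [Module.Free (Localization.AtPrime P) (LocalizedModule P.primeCompl V)] :
    ∃ a, a ∉ P ∧ a ∈ factorIdeal A V := by
  classical
  let b := Module.Free.chooseBasis (Localization.AtPrime P) (LocalizedModule P.primeCompl V)
  let mk := LocalizedModule.mkLinearMap P.primeCompl V
  have hS : P.primeCompl ≤ nonZeroDivisors A := P.primeCompl_le_nonZeroDivisors
  choose z hz using fun i => IsLocalizedModule.surj P.primeCompl mk (b i)
  let u : _ → (Localization.AtPrime P)ˣ := fun i =>
    (IsLocalization.map_units (Localization.AtPrime P) (z i).2).unit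
  let b' := b.unitsSMul u
  have hb' : ∀ i, b' i = mk (z i).1 := fun i => by
    rw [← hz i, Module.Basis.unitsSMul_apply]
    show (algebraMap A (Localization.AtPrime P) ((z i).2 : A)) • b i = _
    rw [algebraMap_smul]
    rfl
  obtain ⟨t, ht, φ, hφ⟩ := exists_lift_mul (V := V) P.primeCompl hS
    (fun i => (b'.coord i).restrictScalars A ∘ₗ mk)
  refine ⟨t, ht, mem_factorIdeal φ (fun i => (z i).1) fun v => ?_⟩
  apply mkLinearMap_injective P.primeCompl hS
  rw [map_sum, map_smul]
  calc ∑ i, mk (φ i v • (z i).1) = ∑ i, t • ((b'.coord i) (mk v) • b' i) := by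
        refine Finset.sum_congr rfl fun i _ => ?_
        rw [map_smul, ← hb', ← algebraMap_smul (Localization.AtPrime P) (φ i v), hφ, smul_assoc]
        rfl
    _ = t • mk v := by
        rw [← Finset.smul_sum]
        congr 1
        exact b'.sum_repr (mk v)

/-- At primes of height at most one of a factorial ring, finite torsion-free modules are free. -/
theorem free_of_height_le_one [IsNoetherianRing A] [UniqueFactorizationMonoid A] (P : Ideal A)
    [P.IsPrime] (hP : P.height ≤ 1) :
    Module.Free (Localization.AtPrime P) (LocalizedModule P.primeCompl V) := by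
  have hp : P.IsPrincipal := by
    rcases eq_or_ne P ⊥ with rfl | hne
    · infer_instance
    · obtain ⟨x, hxP, hxp⟩ := Ideal.IsPrime.exists_mem_prime_of_ne_bot ‹_› hne
      refine ⟨x, P.eq_span_singleton_of_height_eq_one (le_antisymm hP ?_) hxP hxp⟩
      rw [Order.one_le_iff_ne_zero]
      intro h0
      exact hne (Ideal.height_eq_zero_iff_eq_bot.mp h0)
  have hm : (IsLocalRing.maximalIdeal (Localization.AtPrime P)).IsPrincipal := by
    obtain ⟨x, hx⟩ := hp
    refine ⟨algebraMap A _ x, ?_⟩
    rw [← Localization.AtPrime.map_eq_maximalIdeal]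
    refine (congrArg (Ideal.map (algebraMap A (Localization.AtPrime P))) hx).trans ?_
    rw [Ideal.submodule_span_eq, Ideal.map_span, Set.image_singleton, Ideal.submodule_span_eq]
  have : IsPrincipalIdealRing (Localization.AtPrime P) :=
    ((tfae_of_isNoetherianRing_of_isLocalRing_of_isDomain (Localization.AtPrime P)).out 0 4).mpr hm
  exact Module.free_of_finite_type_torsion_free'

end Localization

section HeightTwo

variable {A : Type*} [CommRing A] [IsDomain A] [UniqueFactorizationMonoid A]

omit [IsDomain A] in
theorem exists_prime_not_mem_sq [IsNoetherianRing A] (P : Ideal A) [P.IsPrime]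
    (hP : P.height = 2) :
    ∃ π, Prime π ∧ π ∈ P ∧
      algebraMap A (Localization.AtPrime P) π ∉
        IsLocalRing.maximalIdeal (Localization.AtPrime P) ^ 2 := by
  classical
  set m := IsLocalRing.maximalIdeal (Localization.AtPrime P) with hm
  suffices hex : ∀ f : A, f ∈ P → algebraMap A _ f ∉ m ^ 2 →
      ∃ π, Prime π ∧ π ∈ P ∧ algebraMap A (Localization.AtPrime P) π ∉ m ^ 2 by
    by_contra hcon
    have hall : m ≤ m • m := by
      rw [smul_eq_mul, ← sq]
      refine le_of_eq_of_le (hm.trans (Localization.AtPrime.map_eq_maximalIdeal (I := P)).symm)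
        (Ideal.map_le_iff_le_comap.mpr ?_)
      intro f hf
      by_contra hf2
      exact hcon (hex f hf hf2)
    have hbot : m = ⊥ := Submodule.eq_bot_of_le_smul_of_le_jacobson_bot m m
      (IsNoetherian.noetherian _) hall (IsLocalRing.maximalIdeal_le_jacobson ⊥)
    have hf : IsField (Localization.AtPrime P) := IsLocalRing.isField_iff_maximalIdeal_eq.mpr hbot
    have hdim := IsLocalization.AtPrime.ringKrullDim_eq_height P (Localization.AtPrime P)
    rw [ringKrullDim_eq_zero_of_isField hf, hP] at hdim
    exact absurd hdim (by decide)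
  intro f
  induction f using UniqueFactorizationMonoid.induction_on_prime with
  | h₁ => intro _ h; simp at h
  | h₂ x hx => intro hxP _; exact absurd (Ideal.eq_top_of_isUnit_mem P hxP hx) ‹P.IsPrime›.ne_top
  | h₃ x p hx hp ih =>
    intro hf hf2
    by_cases hpP : p ∈ P
    · refine ⟨p, hp, hpP, fun h2 => hf2 ?_⟩
      rw [map_mul]
      exact Ideal.mul_mem_right _ _ h2
    · refine ih ((‹P.IsPrime›.mem_or_mem hf).resolve_left hpP) fun h2 => hf2 ?_
      rw [map_mul]
      exact Ideal.mul_mem_left _ _ h2

/-- At height-two primes of a regular factorial ring, modules in which divisibility by a prime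
ignores multipliers prime to it are free. -/
theorem free_of_height_eq_two [IsRegularRing A] {V : Type*} [AddCommGroup V] [Module A V]
    [Module.Finite A V] [Module.IsTorsionFree A V]
    (hdiv : ∀ (π w : A) (r r' : V), Prime π → ¬ π ∣ w → w • r = π • r' → ∃ r₀, r = π • r₀)
    (P : Ideal A) [P.IsPrime] (hP : P.height = 2) :
    Module.Free (Localization.AtPrime P) (LocalizedModule P.primeCompl V) := by
  classical
  set B := Localization.AtPrime P with hB
  set N := LocalizedModule P.primeCompl V
  obtain ⟨π, hπ, hπP, hπ2⟩ := exists_prime_not_mem_sq P hP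
  set m := IsLocalRing.maximalIdeal B with hm
  set π' := algebraMap A B π with hπ'
  have hπm : π' ∈ m := by
    rw [hm, ← Localization.AtPrime.map_eq_maximalIdeal]
    exact Ideal.mem_map_of_mem _ hπP
  -- two generators of the maximal ideal, the first being `π`
  have hspan : ∃ g : B, m = Ideal.span {π', g} := by
    have hreg : IsRegularLocalRing B := IsRegularRing.isRegularLocalRing_localization P
    have hd := hreg.spanFinrank_maximalIdeal
    rw [IsLocalization.AtPrime.ringKrullDim_eq_height P B, hP] at hd
    have hd' : m.spanFinrank = 2 := by exact_mod_cast hd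
    obtain ⟨s, hs, hsp⟩ := Submodule.FG.exists_span_finset_card_eq_spanFinrank
      (p := m) (IsNoetherian.noetherian _)
    rw [hd', Finset.card_eq_two] at hs
    obtain ⟨f₁, f₂, -, rfl⟩ := hs
    rw [Finset.coe_pair] at hsp
    change Ideal.span {f₁, f₂} = m at hsp
    obtain ⟨c, d, hcd⟩ := Ideal.mem_span_pair.mp (hsp ▸ hπm : π' ∈ Ideal.span {f₁, f₂})
    have hf : ∀ i, i ∈ ({f₁, f₂} : Set B) → i ∈ m := fun i hi => hsp ▸ Ideal.subset_span hi
    have hu : IsUnit c ∨ IsUnit d := by
      by_contra hcon
      push Not at hcon
      refine hπ2 ?_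
      show π' ∈ m ^ 2
      rw [← hcd, sq]
      exact add_mem (Ideal.mul_mem_mul ((IsLocalRing.mem_maximalIdeal _).mpr hcon.1)
          (hf _ (by simp)))
        (Ideal.mul_mem_mul ((IsLocalRing.mem_maximalIdeal _).mpr hcon.2) (hf _ (by simp)))
    rcases hu with hc | hd
    · refine ⟨f₂, le_antisymm ?_ ?_⟩
      · rw [← hsp, Ideal.span_le, Set.insert_subset_iff, Set.singleton_subset_iff]
        refine ⟨?_, Ideal.subset_span (by simp)⟩
        have : f₁ = (↑hc.unit⁻¹ : B) * π' - (↑hc.unit⁻¹ : B) * d * f₂ := by
          rw [← hcd, mul_add, ← mul_assoc, hc.val_inv_mul, one_mul, mul_assoc, add_sub_cancel_right]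
        rw [this]
        exact sub_mem (Ideal.mul_mem_left _ _ (Ideal.subset_span (by simp)))
          (Ideal.mul_mem_left _ _ (Ideal.subset_span (by simp)))
      · rw [Ideal.span_le, Set.insert_subset_iff, Set.singleton_subset_iff]
        exact ⟨hπm, hf _ (by simp)⟩
    · refine ⟨f₁, le_antisymm ?_ ?_⟩
      · rw [← hsp, Ideal.span_le, Set.insert_subset_iff, Set.singleton_subset_iff]
        refine ⟨Ideal.subset_span (by simp), ?_⟩
        have : f₂ = (↑hd.unit⁻¹ : B) * π' - (↑hd.unit⁻¹ : B) * c * f₁ := by
          rw [← hcd, mul_add, ← mul_assoc _ d, hd.val_inv_mul, one_mul, mul_assoc,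
            add_sub_cancel_left]
        rw [this]
        exact sub_mem (Ideal.mul_mem_left _ _ (Ideal.subset_span (by simp)))
          (Ideal.mul_mem_left _ _ (Ideal.subset_span (by simp)))
      · rw [Ideal.span_le, Set.insert_subset_iff, Set.singleton_subset_iff]
        exact ⟨hπm, hf _ (by simp)⟩
  obtain ⟨g, hg⟩ := hspan
  set C := B ⧸ Ideal.span {π'}
  have hdisj : Disjoint (P.primeCompl : Set A) (Ideal.span {π} : Ideal A) := by
    rw [Set.disjoint_left]
    intro x hx hxπ
    exact hx ((Ideal.span_singleton_le_iff_mem P).mpr hπP hxπ)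
  have hIprime : (Ideal.span {π'} : Ideal B).IsPrime := by
    have := IsLocalization.isPrime_of_isPrime_disjoint P.primeCompl B (Ideal.span {π})
      ((Ideal.span_singleton_prime hπ.ne_zero).mpr hπ) hdisj
    rwa [Ideal.map_span, Set.image_singleton] at this
  have : IsLocalRing C :=
    IsLocalRing.of_surjective' (Ideal.Quotient.mk _) Ideal.Quotient.mk_surjective
  have hmC : (IsLocalRing.maximalIdeal C).IsPrincipal := by
    refine ⟨Ideal.Quotient.mk _ g, ?_⟩
    rw [← IsLocalRing.map_maximalIdeal_of_surjective _ Ideal.Quotient.mk_surjective, ← hm, hg,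
      Ideal.map_span, Set.image_pair, Ideal.submodule_span_eq,
      (Ideal.Quotient.eq_zero_iff_mem.mpr (Ideal.mem_span_singleton_self π') :
        Ideal.Quotient.mk (Ideal.span {π'}) π' = 0), Ideal.span_insert_zero]
  have : IsPrincipalIdealRing C :=
    ((tfae_of_isNoetherianRing_of_isLocalRing_of_isDomain C).out 0 4).mpr hmC
  -- the key divisibility
  have key : ∀ (b : B) (n n' : N), b ∉ Ideal.span {π'} → b • n = π' • n' →
      ∃ n₀ : N, n = π' • n₀ := by
    intro b n n' hb heq
    obtain ⟨a, u, rfl⟩ := IsLocalization.exists_mk'_eq P.primeCompl b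
    induction n using LocalizedModule.induction_on with
    | _ r s =>
      induction n' using LocalizedModule.induction_on with
      | _ r' s' =>
        rw [hπ', algebraMap_smul, ← Localization.mk_eq_mk', LocalizedModule.mk_smul_mk, LocalizedModule.smul'_mk,
          LocalizedModule.mk_eq] at heq
        obtain ⟨t, ht⟩ := heq
        simp only [Submonoid.smul_def, Submonoid.coe_mul, smul_smul] at ht
        have hw : ¬ π ∣ (t : A) * (s' : A) * a := by
          intro hd
          rcases hπ.dvd_or_dvd hd with hd | hd
          · rcases hπ.dvd_or_dvd hd with hd | hd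
            · exact t.2 (P.mem_of_dvd hd hπP)
            · exact s'.2 (P.mem_of_dvd hd hπP)
          · refine hb ?_
            obtain ⟨a', rfl⟩ := hd
            rw [IsLocalization.mk'_eq_mul_mk'_one, map_mul, hπ']
            exact Ideal.mul_mem_right _ _
              (Ideal.mul_mem_right _ _ (Ideal.mem_span_singleton_self _))
        obtain ⟨r₀, hr₀⟩ := hdiv π _ r (((t : A) * ((u : A) * (s : A))) • r') hπ hw (by
          rw [smul_smul]
          convert ht using 2
          · ring
          · ring)
        refine ⟨LocalizedModule.mk r₀ s, ?_⟩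
        rw [hπ', algebraMap_smul, LocalizedModule.smul'_mk, ← hr₀]
  have htf : Module.IsTorsionFree C (QuotSMulTop π' N) := by
    rw [Module.isTorsionFree_iff_smul_eq_zero]
    intro c x
    intro h
    · obtain ⟨b, rfl⟩ := Ideal.Quotient.mk_surjective c
      obtain ⟨n, rfl⟩ := Submodule.Quotient.mk_surjective _ x
      by_cases hb : b ∈ Ideal.span {π'}
      · exact Or.inl (Ideal.Quotient.eq_zero_iff_mem.mpr hb)
      · right
        have h' : Submodule.Quotient.mk (b • n) = (0 : QuotSMulTop π' N) := h
        rw [Submodule.Quotient.mk_eq_zero, Submodule.mem_smul_pointwise_iff_exists] at h'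
        obtain ⟨n', -, hn'⟩ := h'
        obtain ⟨n₀, rfl⟩ := key b n n' hb hn'.symm
        rw [Submodule.Quotient.mk_eq_zero]
        exact Submodule.smul_mem_pointwise_smul n₀ π' _ Submodule.mem_top
  have : Module.Finite C (QuotSMulTop π' N) := Module.Finite.of_restrictScalars_finite B _ _
  have hfree : Module.Free C (QuotSMulTop π' N) := Module.free_of_finite_type_torsion_free'
  have : Module.FinitePresentation B N := Module.finitePresentation_of_finite B N
  have hπ0 : π' ≠ 0 := by
    intro h0
    exact hπ2 (h0 ▸ zero_mem _)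
  refine (Module.free_quotSMulTop_iff_free B N ?_ (IsSMulRegular.of_ne_zero hπ0)).mp hfree
  rw [IsLocalRing.jacobson_eq_maximalIdeal _ bot_ne_top]
  exact hπm

end HeightTwo

end Vale.Agent.P190
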