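import Vale.Agent.P190.Bound

/-!
Vanishing first Koszul homology gives regular sequences, locally.
-/

namespace Vale.Agent.P190

open IsLocalRing

variable {S : Type*} [CommRing S] [IsLocalRing S] [IsNoetherianRing S]
variable {L : Type*} [AddCommGroup L] [Module S L] [Module.Finite S L]

theorem ofList_smul_top_eq_range {S : Type*} [CommRing S] {L : Type*} [AddCommGroup L]
    [Module S L] {ι : Type*} [Fintype ι] [DecidableEq ι] (f : ι → S) (rs : List S)
    (hrs : ∀ r, r ∈ rs ↔ r ∈ Set.range f) :
    Ideal.ofList rs • (⊤ : Submodule S L) = LinearMap.range (lin f L) := by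
  apply le_antisymm
  · rw [Ideal.ofList, Submodule.span_smul_eq, Submodule.set_smul_le_iff]
    intro r v hr _
    obtain ⟨i, rfl⟩ := (hrs r).mp hr
    exact ⟨Pi.single i v, lin_single f i v⟩
  · rintro _ ⟨u, rfl⟩
    rw [lin_apply]
    exact Submodule.sum_mem _ fun i _ =>
      Submodule.smul_mem_smul (Ideal.subset_span ((hrs _).mpr ⟨i, rfl⟩)) Submodule.mem_top

/-- Over a Noetherian local ring, a family in the maximal ideal with vanishing first Koszul
homology on a finite module can be ordered to a weakly regular sequence. -/
theorem exists_regular_of_exact : ∀ (ι : Type) [Fintype ι] [DecidableEq ι] (f : ι → S),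
    (∀ i, f i ∈ maximalIdeal S) → Exact1 f L →
    ∃ rs : List S, rs.length = Fintype.card ι ∧ (∀ r, r ∈ rs ↔ r ∈ Set.range f) ∧
      RingTheory.Sequence.IsWeaklyRegular L rs := by
  classical
  refine fun ι hι => Fintype.induction_empty_option
    (P := fun (α : Type) _ => ∀ [DecidableEq α] (f : α → S), (∀ i, f i ∈ maximalIdeal S) →
      Exact1 f L → ∃ rs : List S, rs.length = Fintype.card α ∧ (∀ r, r ∈ rs ↔ r ∈ Set.range f) ∧
        RingTheory.Sequence.IsWeaklyRegular L rs) ?_ ?_ ?_ ι
  · intro α β _ e ih _ f hf hex
    let _ : Fintype α := Fintype.ofEquiv β e.symm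
    have hα : Exact1 (f ∘ e) L := by
      refine Exact1.reindex e.symm ?_
      convert hex
      funext i; simp
    obtain ⟨rs, h1, h2, h3⟩ := ih (f ∘ e) (fun i => hf _) hα
    refine ⟨rs, by rw [h1]; exact Fintype.card_congr e, fun r => ?_, h3⟩
    rw [h2, Set.range_comp, e.surjective.range_eq, Set.image_univ]
  · intro _ f _ _
    exact ⟨[], by simp, by simp, RingTheory.Sequence.IsWeaklyRegular.nil S L⟩
  · intro α _ ih inst f hf hex
    obtain rfl : inst = fun a b => @Option.instDecidableEq α (Classical.decEq α) a b :=
      Subsingleton.elim _ _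
    have hrest : Exact1 (f ∘ some) L := by
      refine Submodule.le_of_le_smul_of_le_jacobson_bot (I := Ideal.span {f none})
        (IsNoetherian.noetherian _) ?_ ?_
      · rw [IsLocalRing.jacobson_eq_maximalIdeal _ bot_ne_top, Ideal.span_le,
          Set.singleton_subset_iff]
        exact hf none
      · intro v hv
        have hc : ext0 S L v ∈ bdry f L := by
          refine hex ?_
          rw [LinearMap.mem_ker, lin_option]
          have hv' : lin (f ∘ some) L v = 0 := hv
          simpa [Function.comp_def, ext0] using hv'
        obtain ⟨w, v', hv', h1, h2⟩ := (mem_bdry_option f _).mp hc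
        have hw : lin (f ∘ some) L w = 0 := by simpa using h1.symm
        have e : v = v' + f none • w := by funext l; exact congrFun h2 l
        rw [e]
        exact Submodule.add_mem_sup hv'
          (Submodule.smul_mem_smul (Ideal.mem_span_singleton_self _) hw)
    obtain ⟨rs, h1, h2, h3⟩ := ih (f ∘ some) (fun i => hf _) hrest
    refine ⟨rs ++ [f none], by simp [h1], fun r => ?_, ?_⟩
    · simp [h2, Option.exists, or_comm, eq_comm]
    · rw [RingTheory.Sequence.isWeaklyRegular_append_iff]
      refine ⟨h3, ?_⟩
      rw [RingTheory.Sequence.isWeaklyRegular_singleton_iff, isSMulRegular_iff_right_eq_zero_of_smul]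
      intro x hx
      obtain ⟨m, rfl⟩ := Submodule.Quotient.mk_surjective _ x
      rw [← Submodule.Quotient.mk_smul, Submodule.Quotient.mk_eq_zero,
        ofList_smul_top_eq_range (f ∘ some) rs h2] at hx
      rw [Submodule.Quotient.mk_eq_zero, ofList_smul_top_eq_range (f ∘ some) rs h2]
      obtain ⟨h, hh⟩ := colonMap_surjective (M := L) f
        ⟨Submodule.Quotient.mk m, by
          rw [LinearMap.mem_ker, LinearMap.lsmul_apply, ← Submodule.Quotient.mk_smul,
            Submodule.Quotient.mk_eq_zero]
          exact hx⟩
      have : Subsingleton (H1 f L) := (subsingleton_H1_iff f).mpr hex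
      rw [Subsingleton.elim h 0, map_zero] at hh
      exact (Submodule.Quotient.mk_eq_zero _).mp (congrArg Subtype.val hh).symm

section Localization

variable {R : Type*} [CommRing R] {M : Type*} [AddCommGroup M] [Module R M]
variable {ι : Type*} [Fintype ι] [DecidableEq ι]

theorem exact_localization (T : Submonoid R) (a : ι → R) (h : Exact1 a M) :
    Exact1 (fun i => algebraMap R (Localization T) (a i)) (LocalizedModule T M) := by
  classical
  intro u hu
  set loc := LocalizedModule.mkLinearMap T M
  obtain ⟨t, ht⟩ := IsLocalizedModule.exist_integer_multiples_of_finite T loc u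
  choose v hv using ht
  have hlin : loc (lin a M v) = 0 := by
    rw [lin_apply, map_sum]
    simp only [map_smul, hv]
    have hu' : lin (fun i => algebraMap R (Localization T) (a i)) (LocalizedModule T M) u = 0 := hu
    rw [lin_apply] at hu'
    simp only [algebraMap_smul] at hu'
    rw [Finset.sum_congr rfl fun x _ => smul_comm (a x) (t : R) (u x), ← Finset.smul_sum, hu',
      smul_zero]
  obtain ⟨s, hs⟩ := (IsLocalizedModule.eq_zero_iff T loc).mp hlin
  have hb : (s : R) • v ∈ bdry a M := by
    refine h ?_
    rw [LinearMap.mem_ker, map_smul]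
    exact hs
  have hb2 : loc.compLeft ι ((s : R) • v) ∈ bdry (fun i => algebraMap R (Localization T) (a i))
      (LocalizedModule T M) := by
    have := bdry_map a loc hb
    refine (show bdry a (LocalizedModule T M) ≤ (bdry (fun i => algebraMap R (Localization T) (a i))
      (LocalizedModule T M)).restrictScalars R from iSup_le fun p => ?_) this
    rintro _ ⟨m, rfl⟩
    have := bd_mem_bdry (M := LocalizedModule T M)
      (fun i => algebraMap R (Localization T) (a i)) p.1 p.2 m
    rw [Submodule.restrictScalars_mem, bd_apply]
    simpa only [algebraMap_smul] using this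
  have heq : loc.compLeft ι ((s : R) • v) =
      algebraMap R (Localization T) ((s * t : T) : R) • u := by
    funext i
    rw [compLeft_apply']
    simp only [Pi.smul_apply, map_smul, hv, algebraMap_smul, Submonoid.coe_mul, mul_smul]
  rw [heq] at hb2
  have hu2 := Submodule.smul_mem _
    (((IsLocalization.map_units (Localization T) (s * t)).unit⁻¹ : (Localization T)ˣ) :
      Localization T) hb2
  rwa [← mul_smul, IsUnit.val_inv_mul, one_smul] at hu2

end Localization

end Vale.Agent.P190
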