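import Vale.Agent.P190.Bound
import Vale.Agent.P190.Local

/-!
From Frobenius-semilinear projections to a module with vanishing first Koszul homology.
-/

namespace Vale.Agent.P190

open MvPolynomial

/-- `R` with `r` acting by multiplication by `r ^ (p ^ e)`. -/
def Tw (R : Type*) (_p _e : ℕ) : Type _ := R

section Tw

variable {R : Type*} [CommRing R] {p e : ℕ} [ExpChar R p]

instance : AddCommGroup (Tw R p e) := inferInstanceAs (AddCommGroup R)

noncomputable instance : Module R (Tw R p e) :=
  Module.compHom R (iterateFrobenius R p e)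

/-- The underlying element. -/
def unTw (x : Tw R p e) : R := x

/-- An element, seen in the twisted module. -/
def toTw (R : Type*) (p e : ℕ) (x : R) : Tw R p e := x

@[simp] theorem unTw_toTw (x : R) : unTw (toTw R p e x) = x := rfl

omit [ExpChar R p] in
theorem unTw_add (x y : Tw R p e) : unTw (x + y) = unTw x + unTw y := rfl

theorem unTw_smul (r : R) (x : Tw R p e) : unTw (r • x) = r ^ p ^ e * unTw x := rfl

omit [ExpChar R p] in
theorem unTw_injective : Function.Injective (unTw : Tw R p e → R) := fun _ _ h => h

omit [ExpChar R p] in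
theorem unTw_zero : unTw (0 : Tw R p e) = 0 := rfl

omit [ExpChar R p] in
theorem unTw_sum {ι : Type*} (s : Finset ι) (f : ι → Tw R p e) :
    unTw (∑ i ∈ s, f i) = ∑ i ∈ s, unTw (f i) := by
  classical
  induction s using Finset.induction_on with
  | empty => rfl
  | insert a s ha ih => rw [Finset.sum_insert ha, Finset.sum_insert ha, unTw_add, ih]

end Tw

/-- Orthogonal nonzero projections of `R` commuting with multiplication by `q`-th powers. -/
structure Projections (R : Type*) [CommRing R] (q : ℕ) (I : Type*) where
  /-- The projections. -/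
  π : I → R →+ R
  map_pow_mul : ∀ c r b, π c (r ^ q * b) = r ^ q * π c b
  idem : ∀ c x, π c (π c x) = π c x
  orth : ∀ c c', c ≠ c' → ∀ x, π c (π c' x) = 0
  ne_zero : ∀ c, ∃ x, π c x ≠ 0

section Proj

variable {R : Type*} [CommRing R] {p e : ℕ} [ExpChar R p] {I : Type*}

/-- A projection as a linear map of the twisted module. -/
noncomputable def Projections.lmap (P : Projections R (p ^ e) I) (c : I) :
    Tw R p e →ₗ[R] Tw R p e where
  toFun x := toTw R p e (P.π c (unTw x))
  map_add' x y := unTw_injective (by simp [unTw_add, map_add])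
  map_smul' r x := unTw_injective (by simp [unTw_smul, P.map_pow_mul])

/-- The summand cut out by a projection. -/
noncomputable abbrev Projections.N (P : Projections R (p ^ e) I) (c : I) :
    Submodule R (Tw R p e) :=
  LinearMap.range (P.lmap c)

theorem Projections.unTw_mem (P : Projections R (p ^ e) I) (c : I) (x : P.N c) :
    P.π c (unTw (x : Tw R p e)) = unTw (x : Tw R p e) := by
  obtain ⟨_, y, rfl⟩ := x
  exact P.idem c _

theorem Projections.nontrivial (P : Projections R (p ^ e) I) (c : I) : Nontrivial (P.N c) := by
  obtain ⟨x, hx⟩ := P.ne_zero c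
  refine nontrivial_of_ne ⟨P.lmap c (toTw R p e x), LinearMap.mem_range_self _ _⟩ 0 fun h => hx ?_
  exact congrArg (fun z : P.N c => unTw (z : Tw R p e)) h

variable {k : Type*} [Field k] [ExpChar k p] [PerfectRing k p]
variable {σ : Type} [Fintype σ] [DecidableEq σ]
variable [Algebra (MvPolynomial σ k) R] [Algebra k R] [IsScalarTower k (MvPolynomial σ k) R]

omit [Fintype σ] [DecidableEq σ] [Algebra (MvPolynomial σ k) R]
  [IsScalarTower k (MvPolynomial σ k) R] in
theorem Projections.map_smul_k (P : Projections R (p ^ e) I) (c : I) (a : k) (x : R) :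
    P.π c (a • x) = a • P.π c x := by
  obtain ⟨b, rfl⟩ : ∃ b : k, b ^ p ^ e = a :=
    ⟨(iterateFrobeniusEquiv k p e).symm a, (iterateFrobeniusEquiv k p e).apply_symm_apply a⟩
  simp only [Algebra.smul_def, map_pow, P.map_pow_mul]

/-- The variables as elements of `R`. -/
noncomputable abbrev xR (k : Type*) [Field k] (σ : Type) (R : Type*) [CommRing R]
    [Algebra (MvPolynomial σ k) R] : σ → R :=
  fun i => algebraMap (MvPolynomial σ k) R (X i)

theorem Projections.exists_exact [Fintype I] (P : Projections R (p ^ e) I)
    (h : Module.length k (H1 (xpow k (id : σ → σ) fun _ => p ^ e) R) < (Fintype.card I : ℕ∞)) :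
    ∃ c, Exact1 (xR k σ R) (P.N c) := by
  classical
  by_contra hcon
  push Not at hcon
  choose u hu hnot using fun c => Set.not_subset.mp (hcon c)
  let a := xpow k (id : σ → σ) fun _ => p ^ e
  let w : I → σ → R := fun c i => unTw ((u c i : Tw R p e))
  have hw : ∀ c, lin a R (w c) = 0 := by
    intro c
    have hc : lin (xR k σ R) (P.N c) (u c) = 0 := hu c
    have := congrArg (fun z : P.N c => unTw (z : Tw R p e)) hc
    rw [lin_apply, AddSubmonoidClass.coe_finsetSum, unTw_sum] at this
    rw [lin_apply]
    simpa [w, a, xpow, xR, Algebra.smul_def, unTw_smul, unTw_zero] using this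
  let v : I → H1 a R := fun c => cls a R ⟨w c, hw c⟩
  have hind : LinearIndependent k v := by
    rw [Fintype.linearIndependent_iff]
    intro g hg c
    by_contra hgc
    apply hnot c
    have hb : (∑ d, g d • w d) ∈ bdry a R := by
      have h0 : cls a R (∑ d, g d • (⟨w d, hw d⟩ : LinearMap.ker (lin a R))) = 0 := by
        rw [map_sum, ← hg]
        exact Finset.sum_congr rfl fun d _ => LinearMap.map_smul_of_tower _ _ _
      rw [cls_eq_zero] at h0
      simpa [AddSubmonoidClass.coe_finsetSum] using h0
    let Φ0 : R →+ P.N c :=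
      { toFun := fun x => ⟨P.lmap c (toTw R p e x), LinearMap.mem_range_self _ _⟩
        map_zero' := Subtype.ext (map_zero (P.lmap c))
        map_add' := fun x y => Subtype.ext (map_add (P.lmap c) _ _) }
    let Φ : (σ → R) → σ → P.N c := fun f i => Φ0 (f i)
    have hsub : ∀ f g : σ → R, Φ (f - g) = Φ f - Φ g := fun f g =>
      funext fun i => map_sub Φ0 (f i) (g i)
    have hΦ : ∀ f ∈ bdry a R, Φ f ∈ bdry (xR k σ R) (P.N c) := by
      intro f hf
      unfold bdry at hf
      induction hf using Submodule.iSup_induction' with
      | mem q f hf =>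
        obtain ⟨m, rfl⟩ := hf
        have hscal : ∀ (j : σ) (x : R), Φ0 (a j • x) = xR k σ R j • Φ0 x := by
          intro j x
          refine Subtype.ext (unTw_injective ?_)
          show P.π c (a j • x) = (xR k σ R j) ^ p ^ e * P.π c x
          rw [Algebra.smul_def, ← P.map_pow_mul, xR, ← map_pow]
          rfl
        have hsingle : ∀ (j : σ) (x : R), Φ (Pi.single j x) = Pi.single j (Φ0 x) := fun j x =>
          funext fun i => Pi.apply_single (fun _ => Φ0) (fun _ => map_zero Φ0) j x i
        rw [bd_apply, hsub, hsingle, hsingle, hscal, hscal]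
        exact bd_mem_bdry _ _ _ _
      | zero =>
        have e0 : Φ 0 = 0 := by
          funext i; exact map_zero Φ0
        rw [e0]
        exact zero_mem _
      | add f f' _ _ hf hf' =>
        have e2 : Φ (f + f') = Φ f + Φ f' := by
          funext i
          exact map_add Φ0 _ _
        rw [e2]
        exact add_mem hf hf'
    have h1 := hΦ _ hb
    obtain ⟨b, hb'⟩ : ∃ b : k, b ^ p ^ e = g c :=
      ⟨(iterateFrobeniusEquiv k p e).symm (g c), (iterateFrobeniusEquiv k p e).apply_symm_apply _⟩
    have key : Φ (∑ d, g d • w d) = algebraMap k R b • u c := by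
      funext i
      refine Subtype.ext (unTw_injective ?_)
      show P.π c ((∑ d, g d • w d) i) = unTw (algebraMap k R b • (u c i : Tw R p e))
      rw [Finset.sum_apply, map_sum, Finset.sum_eq_single c, unTw_smul, ← map_pow, hb',
        Pi.smul_apply, P.map_smul_k, Algebra.smul_def]
      · exact congrArg _ (P.unTw_mem c _)
      · intro d _ hd
        rw [Pi.smul_apply, P.map_smul_k]
        show g d • P.π c (unTw (u d i : Tw R p e)) = 0
        rw [← P.unTw_mem d (u d i), P.orth c d hd.symm, smul_zero]
      · simp
    rw [key] at h1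
    have hb0 : b ≠ 0 := by
      rintro rfl
      exact hgc (by rw [← hb', zero_pow (pow_pos (expChar_pos k p) e).ne'])
    have h2 := Submodule.smul_mem _ (algebraMap k R b⁻¹) h1
    rwa [smul_smul, ← map_mul, inv_mul_cancel₀ hb0, map_one, one_smul] at h2
  refine absurd h (not_lt.mpr ?_)
  rw [Module.length_of_free k (H1 a R), Module.length_eq_one k k, mul_one]
  have hc := hind.cardinal_lift_le_rank
  have hc' := Cardinal.toENat.monotone' hc
  simpa using hc'

/-- The twisted module is finite when `R` is finite over the polynomial ring. -/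
theorem finite_tw [Module.Finite (MvPolynomial σ k) R] : Module.Finite R (Tw R p e) := by
  classical
  obtain ⟨n, g, hg⟩ := Module.Finite.exists_fin (R := MvPolynomial σ k) (M := R)
  set q := p ^ e
  have hq : 0 < q := pow_pos (expChar_pos R p) e
  let G : (σ → Fin q) × Fin n → Tw R p e := fun z =>
    toTw R p e (algebraMap (MvPolynomial σ k) R
      (monomial (Finsupp.equivFunOnFinite.symm fun i => (z.1 i : ℕ)) (1 : k)) * g z.2)
  refine Module.Finite.of_surjective (Fintype.linearCombination R G) fun x => ?_
  rw [← LinearMap.mem_range]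
  obtain ⟨c, hc⟩ := (Submodule.mem_span_range_iff_exists_fun _).mp
    (hg ▸ Submodule.mem_top (x := unTw x))
  have hx : x = ∑ i, toTw R p e (c i • g i) := by
    apply unTw_injective
    rw [unTw_sum, ← hc]
    rfl
  rw [hx]
  refine Submodule.sum_mem _ fun i _ => ?_
  induction c i using MvPolynomial.induction_on' with
  | monomial d a =>
    obtain ⟨b, rfl⟩ : ∃ b : k, b ^ q = a :=
      ⟨(iterateFrobeniusEquiv k p e).symm a, (iterateFrobeniusEquiv k p e).apply_symm_apply a⟩
    refine ⟨Pi.single (fun l => ⟨d l % q, Nat.mod_lt _ hq⟩, i)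
      (algebraMap (MvPolynomial σ k) R
        (monomial (Finsupp.equivFunOnFinite.symm fun l => d l / q) b)), ?_⟩
    rw [Fintype.linearCombination_apply_single]
    apply unTw_injective
    rw [unTw_smul, unTw_toTw, Algebra.smul_def]
    simp only [G, unTw_toTw]
    have hd : q • (Finsupp.equivFunOnFinite.symm fun l => d l / q) +
        (Finsupp.equivFunOnFinite.symm fun l => d l % q) = d := by
      ext l
      simp [Nat.div_add_mod]
    rw [← mul_assoc, ← map_pow, monomial_pow, ← map_mul, monomial_mul, mul_one, hd]
  | add a b ha hb =>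
    rw [add_smul]
    exact Submodule.add_mem _ ha hb

end Proj

end Vale.Agent.P190
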