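import Vale.Agent.P190.Frob

/-!
A multigrading of maximal rank cuts `R` into many Frobenius-stable pieces.
-/

namespace Vale.Agent.P190

open MvPolynomial

/-- Projections move along isomorphisms. -/
noncomputable def Projections.congr {R R' : Type*} [CommRing R] [CommRing R'] {q : ℕ} {I : Type*}
    (Q : Projections R q I) (φ : R ≃+* R') : Projections R' q I where
  π c := (φ.toAddMonoidHom.comp (Q.π c)).comp φ.symm.toAddMonoidHom
  map_pow_mul c x y := by simp [Q.map_pow_mul]
  idem c x := by simp [Q.idem]
  orth c c' h x := by simp [Q.orth c c' h]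
  ne_zero c := by
    obtain ⟨x, hx⟩ := Q.ne_zero c
    exact ⟨φ x, by simpa using hx⟩

variable {p : ℕ} [hp : Fact p.Prime] {k : Type*} [Field k] [CharP k p]
variable {n r : ℕ} (w : Fin n → Fin r → ℤ)

/-- The class of a monomial modulo `q`. -/
noncomputable def wcls (q : ℕ) (v : Fin n →₀ ℕ) : Fin r → ZMod q :=
  fun j => ((Finsupp.weight w v j : ℤ) : ZMod q)

theorem wcls_add (q : ℕ) (u v : Fin n →₀ ℕ) : wcls w q (u + v) = wcls w q u + wcls w q v := by
  funext j; simp [wcls]

theorem wcls_qsmul (q : ℕ) (u : Fin n →₀ ℕ) : wcls w q (q • u) = 0 := by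
  funext j; simp [wcls]

/-- Keep the monomials of a given class. -/
noncomputable def part (q : ℕ) (c : Fin r → ZMod q) (f : MvPolynomial (Fin n) k) :
    MvPolynomial (Fin n) k := by
  classical exact ∑ v ∈ f.support.filter (fun v => wcls w q v = c), monomial v (coeff v f)

theorem coeff_part (q : ℕ) (c : Fin r → ZMod q) (f : MvPolynomial (Fin n) k) (v : Fin n →₀ ℕ)
    [Decidable (wcls w q v = c)] :
    coeff v (part w q c f) = if wcls w q v = c then coeff v f else 0 := by
  classical
  rw [part, coeff_sum]
  simp only [coeff_monomial, Finset.sum_ite_eq', Finset.mem_filter, MvPolynomial.mem_support_iff]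
  by_cases h : wcls w q v = c <;> by_cases h' : coeff v f = 0 <;> simp [h, h']

theorem part_add (q : ℕ) (c : Fin r → ZMod q) (f g : MvPolynomial (Fin n) k) :
    part w q c (f + g) = part w q c f + part w q c g := by
  classical
  ext v
  simp only [coeff_add, coeff_part]
  split <;> simp

theorem part_zero (q : ℕ) (c : Fin r → ZMod q) :
    part w q c (0 : MvPolynomial (Fin n) k) = 0 := by
  classical
  ext v; simp [coeff_part]

theorem part_monomial_of_eq (q : ℕ) (v : Fin n →₀ ℕ) (a : k) :
    part w q (wcls w q v) (monomial v a) = monomial v a := by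
  classical
  ext u
  rw [coeff_part, coeff_monomial]
  by_cases h : v = u
  · subst h; simp
  · simp [h]

theorem part_pow_mul (e : ℕ) (c : Fin r → ZMod (p ^ e)) (g f : MvPolynomial (Fin n) k) :
    part w (p ^ e) c (g ^ p ^ e * f) = g ^ p ^ e * part w (p ^ e) c f := by
  classical
  induction g using MvPolynomial.induction_on' with
  | add a b ha hb => rw [add_pow_char_pow, add_mul, add_mul, part_add, ha, hb]
  | monomial u a =>
    ext v
    rw [monomial_pow, coeff_part, coeff_monomial_mul', coeff_monomial_mul']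
    by_cases hle : p ^ e • u ≤ v
    · rw [if_pos hle, if_pos hle, coeff_part]
      have : wcls w (p ^ e) (v - p ^ e • u) = wcls w (p ^ e) v := by
        conv_rhs => rw [← tsub_add_cancel_of_le hle]
        rw [wcls_add, wcls_qsmul, add_zero]
      rw [this]
      split <;> simp
    · rw [if_neg hle, if_neg hle]
      split <;> rfl

theorem part_mem {P : Ideal (MvPolynomial (Fin n) k)}
    (hP : ∀ f ∈ P, ∀ c : Fin r → ℤ, weightedHomogeneousComponent w c f ∈ P)
    (q : ℕ) (c : Fin r → ZMod q) {f : MvPolynomial (Fin n) k} (hf : f ∈ P) :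
    part w q c f ∈ P := by
  classical
  have h : part w q c f = ∑ δ ∈ (f.support.image (Finsupp.weight w)).filter
      (fun δ => (fun j => ((δ j : ℤ) : ZMod q)) = c), weightedHomogeneousComponent w δ f := by
    ext v
    rw [coeff_part, coeff_sum]
    simp only [coeff_weightedHomogeneousComponent, Finset.sum_ite_eq, Finset.mem_filter,
      Finset.mem_image, MvPolynomial.mem_support_iff]
    by_cases hv : coeff v f = 0
    · simp [hv]
    · refine if_congr ?_ rfl rfl
      exact ⟨fun hc => ⟨⟨v, hv, rfl⟩, hc⟩, fun hc => hc.2⟩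
  rw [h]
  exact P.sum_mem fun δ _ => hP f hf δ

variable (P : Ideal (MvPolynomial (Fin n) k)) [P.IsPrime]

/-- The classes meeting the complement of `P`. -/
abbrev ClassIdx (q : ℕ) : Type :=
  {c : Fin r → ZMod q // ∃ v : Fin n →₀ ℕ, wcls w q v = c ∧ monomial v (1 : k) ∉ P}

/-- The projection on the quotient. -/
noncomputable def partHom
    (hP : ∀ f ∈ P, ∀ c : Fin r → ℤ, weightedHomogeneousComponent w c f ∈ P)
    (q : ℕ) (c : Fin r → ZMod q) :
    MvPolynomial (Fin n) k ⧸ P →+ MvPolynomial (Fin n) k ⧸ P :=
  QuotientAddGroup.lift P.toAddSubgroup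
    (((Ideal.Quotient.mk P).toAddMonoidHom).comp
      { toFun := part w q c, map_zero' := part_zero w q c, map_add' := part_add w q c })
    fun _ hf => Ideal.Quotient.eq_zero_iff_mem.mpr (part_mem w hP q c hf)

theorem partHom_mk
    (hP : ∀ f ∈ P, ∀ c : Fin r → ℤ, weightedHomogeneousComponent w c f ∈ P)
    (q : ℕ) (c : Fin r → ZMod q) (f : MvPolynomial (Fin n) k) :
    partHom w P hP q c (Ideal.Quotient.mk P f) = Ideal.Quotient.mk P (part w q c f) := rfl

theorem exists_projections
    (hP : ∀ f ∈ P, ∀ c : Fin r → ℤ, weightedHomogeneousComponent w c f ∈ P)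
    (ι : Fin r → Fin n) (hι : ∀ i, X (ι i) ∉ P)
    (hdet : (Matrix.of fun i j => w (ι i) j).det ≠ 0) (e : ℕ) :
    ∃ (I : Type) (_ : Fintype I),
      Nonempty (Projections (MvPolynomial (Fin n) k ⧸ P) (p ^ e) I) ∧
      (p ^ e) ^ r ≤ Fintype.card I * (Matrix.of fun i j => w (ι i) j).det.natAbs ^ r := by
  classical
  set q := p ^ e
  have hq : 0 < q := pow_pos hp.out.pos e
  have : NeZero q := ⟨hq.ne'⟩
  set M : Matrix (Fin r) (Fin r) ℤ := Matrix.of fun i j => w (ι i) j with hM
  set D := M.det.natAbs
  have hD : 0 < D := Int.natAbs_pos.mpr hdet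
  refine ⟨ClassIdx w P q, inferInstance, ⟨?_⟩, ?_⟩
  · refine ⟨fun c => partHom w P hP q c.1, ?_, ?_, ?_, ?_⟩
    · intro c x y
      obtain ⟨g, rfl⟩ := Ideal.Quotient.mk_surjective x
      obtain ⟨f, rfl⟩ := Ideal.Quotient.mk_surjective y
      rw [← map_pow, ← map_mul, partHom_mk, partHom_mk, part_pow_mul, map_mul]
    · intro c x
      obtain ⟨f, rfl⟩ := Ideal.Quotient.mk_surjective x
      rw [partHom_mk, partHom_mk]
      congr 1
      ext v
      rw [coeff_part, coeff_part]
      split <;> rfl
    · intro c c' hne x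
      obtain ⟨f, rfl⟩ := Ideal.Quotient.mk_surjective x
      rw [partHom_mk, partHom_mk]
      have : part w q c.1 (part w q c'.1 f) = 0 := by
        ext v
        rw [coeff_part, coeff_part, coeff_zero]
        split_ifs with h1 h2
        · exact absurd (Subtype.ext (h1.symm.trans h2)) hne
        · rfl
        · rfl
      rw [this, map_zero]
    · rintro ⟨c, v, rfl, hv⟩
      refine ⟨Ideal.Quotient.mk P (monomial v 1), ?_⟩
      rw [partHom_mk, part_monomial_of_eq]
      exact fun h => hv (Ideal.Quotient.eq_zero_iff_mem.mp h)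
  · let vec : (Fin r → Fin q) → (Fin n →₀ ℕ) := fun a => ∑ i, Finsupp.single (ι i) (a i : ℕ)
    have hvec : ∀ a, monomial (vec a) (1 : k) ∉ P := by
      intro a h
      rw [monomial_sum_one] at h
      obtain ⟨i, -, hi⟩ := (Ideal.IsPrime.prod_mem_iff).mp h
      rw [← X_pow_eq_monomial] at hi
      exact hι i (Ideal.IsPrime.mem_of_pow_mem ‹_› _ hi)
    have hw : ∀ a j, wcls w q (vec a) j =
        Matrix.vecMul (fun i => ((a i : ℕ) : ZMod q))
          (M.map (Int.castRingHom (ZMod q))) j := by
      intro a j
      simp [wcls, vec, Matrix.vecMul, dotProduct, hM, Finsupp.weight_single]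
    let F : (Fin r → Fin q) → ClassIdx w P q × (Fin r → Fin D) := fun a =>
      (⟨wcls w q (vec a), vec a, rfl, hvec a⟩,
        fun i => ⟨D * (a i : ℕ) / q, Nat.div_lt_of_lt_mul (by
          rw [mul_comm q D]; exact Nat.mul_lt_mul_of_pos_left (a i).2 hD)⟩)
    have hF : Function.Injective F := by
      intro a b hab
      have h1 : wcls w q (vec a) = wcls w q (vec b) := congrArg Subtype.val (congrArg Prod.fst hab)
      set Mq := M.map (Int.castRingHom (ZMod q))
      have hv : Matrix.vecMul (fun i => ((a i : ℕ) : ZMod q) - ((b i : ℕ) : ZMod q)) Mq = 0 := by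
        funext j
        have := congrFun h1 j
        rw [hw, hw] at this
        rw [show (fun i => ((a i : ℕ) : ZMod q) - ((b i : ℕ) : ZMod q)) =
          (fun i => ((a i : ℕ) : ZMod q)) - (fun i => ((b i : ℕ) : ZMod q)) from rfl,
          Matrix.sub_vecMul, Pi.sub_apply, Pi.zero_apply, this, sub_self]
      have hdetq : Mq.det = ((M.det : ℤ) : ZMod q) := by
        rw [show Mq = (Int.castRingHom (ZMod q)).mapMatrix M from rfl, ← RingHom.map_det]
        rfl
      have hzero : ∀ i, Mq.det * (((a i : ℕ) : ZMod q) - ((b i : ℕ) : ZMod q)) = 0 := by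
        intro i
        have := congrArg (fun v => Matrix.vecMul v Mq.adjugate i) hv
        simpa [Matrix.vecMul_vecMul, Matrix.mul_adjugate, Matrix.vecMul_smul] using this
      funext i
      apply Fin.ext
      have hdiv : D * (a i : ℕ) / q = D * (b i : ℕ) / q :=
        congrArg Fin.val (congrFun (congrArg Prod.snd hab) i)
      have hmod : D * (a i : ℕ) % q = D * (b i : ℕ) % q := by
        refine (ZMod.natCast_eq_natCast_iff' _ _ q).mp ?_
        have h := hzero i
        rw [hdetq] at h
        push_cast
        rw [← sub_eq_zero, ← mul_sub]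
        rcases Int.natAbs_eq M.det with hd | hd
        · rw [hd] at h
          simpa [D] using h
        · rw [hd] at h
          simpa [D] using h
      have : D * (a i : ℕ) = D * (b i : ℕ) := by
        rw [← Nat.div_add_mod (D * (a i : ℕ)) q, hdiv, hmod, Nat.div_add_mod]
      exact Nat.eq_of_mul_eq_mul_left hD this
    have := Fintype.card_le_of_injective F hF
    simpa [Fintype.card_prod, Fintype.card_fun] using this

end Vale.Agent.P190
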