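import Vale.Agent.P190.Free
import Vale.Agent.P190.Frob

/-!
The hull of a finite extension in codimension one: a finite overring, stable under the Frobenius
projections, in which divisibility by a prime of the base ignores multipliers prime to it.
-/

namespace Vale.Agent.P190

variable {A : Type*} [CommRing A] [IsDomain A] [UniqueFactorizationMonoid A]

/-- A divisibility holding after multiplication by all elements of an ideal missing every prime
element holds outright. -/
theorem dvd_of_forall_mul {I : Ideal A} (hI : ∀ π : A, Prime π → ∃ a ∈ I, ¬ π ∣ a) (a₀ : A) :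
    a₀ ≠ 0 → ∀ c₀ : A, (∀ a ∈ I, a₀ ∣ a * c₀) → a₀ ∣ c₀ := by
  induction a₀ using UniqueFactorizationMonoid.induction_on_prime with
  | h₁ => intro h; exact absurd rfl h
  | h₂ x hx => intro _ c₀ _; exact hx.dvd
  | h₃ x p hx hp ih =>
    intro _ c₀ h
    obtain ⟨a, ha, hpa⟩ := hI p hp
    obtain ⟨c₁, rfl⟩ : p ∣ c₀ :=
      (hp.dvd_or_dvd ((dvd_mul_right p x).trans (h a ha))).resolve_left hpa
    refine mul_dvd_mul_left p (ih hx c₁ fun b hb => ?_)
    have := h b hb
    rw [← mul_assoc, mul_comm b p, mul_assoc] at this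
    exact (mul_dvd_mul_iff_left hp.ne_zero).mp this

variable [IsNoetherianRing A]
variable (A) (R : Type*) [CommRing R] [IsDomain R] [Algebra A R] [FaithfulSMul A R]

/-- Fractions that lie in `R` at every height-one prime of `A`. -/
noncomputable def hull : Subalgebra R (FractionRing R) where
  carrier := {ξ | ∀ π : A, Prime π → ∃ a : A, ¬ π ∣ a ∧
    algebraMap R (FractionRing R) (algebraMap A R a) * ξ ∈
      (algebraMap R (FractionRing R)).range}
  algebraMap_mem' r π hπ := ⟨1, hπ.not_dvd_one, ⟨r, by simp⟩⟩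
  add_mem' := by
    intro x y hx hy π hπ
    obtain ⟨a, ha, u, hu⟩ := hx π hπ
    obtain ⟨b, hb, v, hv⟩ := hy π hπ
    refine ⟨a * b, fun h => (hπ.dvd_or_dvd h).elim ha hb,
      algebraMap A R b * u + algebraMap A R a * v, ?_⟩
    simp only [map_add, map_mul, hu, hv]
    ring
  mul_mem' := by
    intro x y hx hy π hπ
    obtain ⟨a, ha, u, hu⟩ := hx π hπ
    obtain ⟨b, hb, v, hv⟩ := hy π hπ
    refine ⟨a * b, fun h => (hπ.dvd_or_dvd h).elim ha hb, u * v, ?_⟩
    simp only [map_mul, hu, hv]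
    ring

variable {A R}

omit [IsNoetherianRing A] [FaithfulSMul A R] in
theorem mem_hull_iff (ξ : FractionRing R) : ξ ∈ hull A R ↔ ∀ π : A, Prime π → ∃ a : A, ¬ π ∣ a ∧
    algebraMap R (FractionRing R) (algebraMap A R a) * ξ ∈
      (algebraMap R (FractionRing R)).range := Iff.rfl

theorem hull_finite [Module.Finite A R] : Module.Finite R (hull A R) := by
  classical
  have := free_of_height_le_one (V := R) (⊥ : Ideal A) (by simp)
  obtain ⟨t, ht, htJ⟩ := exists_mem_of_free (V := R) (⊥ : Ideal A)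
  obtain ⟨n, s, φ', hφ'⟩ := factors_of_mem htJ
  set K := FractionRing R
  set iR := algebraMap R K
  have ht0 : t ≠ 0 := fun h => ht (by simp [h])
  have hiR : Function.Injective iR := IsFractionRing.injective R K
  have hAR : Function.Injective (algebraMap A R) := FaithfulSMul.algebraMap_injective A R
  let m : Fin n → R := fun i => φ' (Pi.single i 1)
  have hsum : ∀ v : R, ∑ i, algebraMap A R (s v i) * m i = algebraMap A R t * v := by
    intro v
    have h := LinearMap.congr_fun hφ' v
    rw [LinearMap.comp_apply, pi_eq_sum_univ (s v)] at h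
    rw [LinearMap.smul_apply, LinearMap.id_apply, Algebra.smul_def] at h
    rw [← h, map_sum]
    refine Finset.sum_congr rfl fun i _ => ?_
    rw [map_smul, Algebra.smul_def]
    congr 1
    simp only [m]
    congr 1
    funext j
    simp [Pi.single_apply, eq_comm]
  -- `t · hull` lies in the span of the `m i`
  have key : ∀ ξ ∈ hull A R, ∃ c : Fin n → A,
      iR (algebraMap A R t) * ξ = iR (∑ i, algebraMap A R (c i) * m i) := by
    intro ξ hξ
    let I : Ideal A :=
      { carrier := {a | iR (algebraMap A R a) * ξ ∈ iR.range}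
        zero_mem' := ⟨0, by simp⟩
        add_mem' := by
          rintro a b ⟨u, hu⟩ ⟨v, hv⟩
          exact ⟨u + v, by simp [hu, hv, add_mul]⟩
        smul_mem' := by
          rintro c a ⟨u, hu⟩
          exact ⟨algebraMap A R c * u, by simp [hu, mul_assoc]⟩ }
    have hI : ∀ π : A, Prime π → ∃ a ∈ I, ¬ π ∣ a := fun π hπ => by
      obtain ⟨a, ha, hu⟩ := hξ π hπ
      exact ⟨a, hu, ha⟩
    obtain ⟨a₀, ha₀, u₀, hu₀⟩ : ∃ a₀, a₀ ≠ 0 ∧ iR (algebraMap A R a₀) * ξ ∈ iR.range := by
      by_cases hp : ∃ π : A, Prime π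
      · obtain ⟨π, hπ⟩ := hp
        obtain ⟨a, ha, hu⟩ := hξ π hπ
        exact ⟨a, fun h => ha (h ▸ dvd_zero π), hu⟩
      · -- `A` is a field, so `R` is one too
        have hf : IsField A := by
          refine ⟨⟨0, 1, zero_ne_one⟩, mul_comm, fun {a} ha => ?_⟩
          by_contra hcon
          have hu : ¬ IsUnit a := fun ⟨u, hu⟩ => hcon ⟨↑u⁻¹, by rw [← hu, Units.mul_inv]⟩
          obtain ⟨π, hπ, -⟩ := WfDvdMonoid.exists_irreducible_factor hu ha
          exact hp ⟨π, UniqueFactorizationMonoid.irreducible_iff_prime.mp hπ⟩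
        have hfR : IsField R := isField_of_isIntegral_of_isField' hf
        obtain ⟨r, hr⟩ := (IsFractionRing.surjective_iff_isField (K := K)).mpr hfR ξ
        exact ⟨1, one_ne_zero, r, by simp [iR, hr]⟩
    have hc : ∀ i, a₀ ∣ s u₀ i := by
      intro i
      refine dvd_of_forall_mul hI a₀ ha₀ _ fun a ⟨u, hu⟩ => ?_
      have he : a • u₀ = a₀ • u := hiR (by
        simp only [Algebra.smul_def, map_mul]
        rw [hu₀, hu]
        ring)
      refine Dvd.intro (s u i) ?_
      have := congrFun (congrArg s he) i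
      simp only [map_smul, Pi.smul_apply, smul_eq_mul] at this
      exact this.symm
    choose c hc using hc
    refine ⟨c, mul_left_cancel₀
      (fun h => ha₀ (hAR (hiR (by rw [h, map_zero, map_zero])))) (?_ :
        iR (algebraMap A R a₀) * _ = iR (algebraMap A R a₀) * _)⟩
    rw [← map_mul, Finset.mul_sum, mul_left_comm, ← hu₀, ← map_mul, ← hsum u₀]
    congr 1
    exact Finset.sum_congr rfl fun i _ => by rw [hc i, map_mul, mul_assoc]
  let W : Submodule R K := Submodule.span R (Set.range fun i => iR (m i))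
  have : Module.Finite R W := Module.Finite.span_of_finite R (Set.finite_range _)
  have : IsNoetherianRing R := IsNoetherianRing.of_finite A R
  have : IsNoetherian R W := isNoetherian_of_isNoetherianRing_of_finite R W
  let L : (hull A R) →ₗ[R] W :=
    LinearMap.codRestrict W
      ((LinearMap.mulLeft R (iR (algebraMap A R t))).comp (hull A R).val.toLinearMap) fun ξ => by
        obtain ⟨c, hc⟩ := key ξ.1 ξ.2
        show iR (algebraMap A R t) * ξ.1 ∈ W
        rw [hc, map_sum]
        refine Submodule.sum_mem _ fun i _ => ?_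
        rw [map_mul, ← Algebra.smul_def]
        exact Submodule.smul_mem _ _ (Submodule.subset_span ⟨i, rfl⟩)
  refine Module.Finite.of_injective L fun x y h => Subtype.ext ?_
  have h' : iR (algebraMap A R t) * x.1 = iR (algebraMap A R t) * y.1 := congrArg Subtype.val h
  exact mul_left_cancel₀ (fun h0 => ht0 (hAR (hiR (by rw [h0, map_zero, map_zero])))) h'

omit [IsNoetherianRing A] in
theorem hull_dvd {π w : A} (hπ : Prime π) (hw : ¬ π ∣ w) {r r' : hull A R}
    (h : algebraMap R (hull A R) (algebraMap A R w) * r =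
      algebraMap R (hull A R) (algebraMap A R π) * r') :
    ∃ r₀ : hull A R, r = algebraMap R (hull A R) (algebraMap A R π) * r₀ := by
  set K := FractionRing R
  set iA : A →+* K := (algebraMap R K).comp (algebraMap A R)
  have hiA : Function.Injective iA :=
    (IsFractionRing.injective R K).comp (FaithfulSMul.algebraMap_injective A R)
  have hπ0 : iA π ≠ 0 := fun h0 => hπ.ne_zero (hiA (by rw [h0, map_zero]))
  have h' : iA w * r.1 = iA π * r'.1 := congrArg Subtype.val h
  refine ⟨⟨(iA π)⁻¹ * r.1, fun σ hσ => ?_⟩, Subtype.ext ?_⟩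
  · by_cases hd : σ ∣ π
    · obtain ⟨a, ha, u, hu⟩ := r'.2 σ hσ
      refine ⟨a * w, fun hd' => (hσ.dvd_or_dvd hd').elim ha fun h2 => ?_, u, ?_⟩
      · exact hw ((hσ.associated_of_dvd hπ hd).symm.dvd.trans h2)
      · show _ = iA (a * w) * ((iA π)⁻¹ * r.1)
        rw [map_mul, mul_assoc, mul_left_comm (iA w), h', ← mul_assoc (iA π)⁻¹,
          inv_mul_cancel₀ hπ0, one_mul, hu]
        rfl
    · obtain ⟨a, ha, u, hu⟩ := r.2 σ hσ
      refine ⟨a * π, fun hd' => (hσ.dvd_or_dvd hd').elim ha hd, u, ?_⟩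
      show _ = iA (a * π) * ((iA π)⁻¹ * r.1)
      rw [map_mul, mul_assoc, ← mul_assoc (iA π), mul_inv_cancel₀ hπ0, one_mul, hu]
      rfl
  · show r.1 = iA π * ((iA π)⁻¹ * r.1)
    rw [← mul_assoc, mul_inv_cancel₀ hπ0, one_mul]

omit [IsNoetherianRing A] in
/-- The projections extend to the hull. -/
theorem hull_projections {q : ℕ} (hq : 0 < q) {I : Type*} (P : Projections R q I) :
    Nonempty (Projections (hull A R) q I) := by
  classical
  set K := FractionRing R
  set iR := algebraMap R K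
  have hiR : Function.Injective iR := IsFractionRing.injective R K
  have hfrac : ∀ ξ : K, ∃ (x s : R), s ≠ 0 ∧ iR s ^ q * ξ = iR x := by
    intro ξ
    obtain ⟨x, s, hs, rfl⟩ := IsFractionRing.div_surjective (A := R) ξ
    have hs0 : s ≠ 0 := nonZeroDivisors.ne_zero hs
    refine ⟨s ^ (q - 1) * x, s, hs0, ?_⟩
    have h0 : iR s ≠ 0 := fun h0 => hs0 (hiR (by rw [h0, map_zero]))
    obtain ⟨q', rfl⟩ : ∃ q', q = q' + 1 := ⟨q - 1, by omega⟩
    rw [Nat.add_sub_cancel, map_mul, map_pow, pow_succ, mul_assoc, ← mul_div_assoc,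
      mul_div_cancel_left₀ _ h0]
  have hone : ∀ (c : I) (ξ : K), ∃! η : K, ∀ x s : R, s ≠ 0 → iR s ^ q * ξ = iR x →
      iR s ^ q * η = iR (P.π c x) := by
    intro c ξ
    obtain ⟨x₀, s₀, hs₀, he₀⟩ := hfrac ξ
    have h0 : iR s₀ ^ q ≠ 0 := pow_ne_zero _ fun h => hs₀ (hiR (by rw [h, map_zero]))
    refine ⟨(iR s₀ ^ q)⁻¹ * iR (P.π c x₀), fun x s hs he => ?_, fun η hη => ?_⟩
    · have : s ^ q * x₀ = s₀ ^ q * x := hiR (by
        rw [map_mul, map_mul, map_pow, map_pow, ← he₀, ← he]; ring)
      refine mul_left_cancel₀ h0 ?_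
      rw [← mul_assoc (iR s ^ q), mul_comm (iR s ^ q) _⁻¹, mul_assoc, ← mul_assoc (iR s₀ ^ q),
        mul_inv_cancel₀ h0, one_mul, ← map_pow, ← map_mul, ← P.map_pow_mul, this,
        P.map_pow_mul, map_mul, map_pow]
    · refine mul_left_cancel₀ h0 ?_
      rw [hη x₀ s₀ hs₀ he₀, ← mul_assoc, mul_inv_cancel₀ h0, one_mul]
  choose f hf huniq using hone
  -- to identify a value it is enough to check one denominator
  have hchk : ∀ (c : I) (ξ η : K) (x s : R), s ≠ 0 → iR s ^ q * ξ = iR x →
      iR s ^ q * η = iR (P.π c x) → f c ξ = η := by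
    intro c ξ η x s hs he hη
    exact mul_left_cancel₀ (pow_ne_zero q fun h => hs (hiR (by rw [h, map_zero])))
      ((hf c ξ x s hs he).trans hη.symm)
  have hmem : ∀ (c : I) (ξ : K), ξ ∈ hull A R → f c ξ ∈ hull A R := by
    intro c ξ hξ π hπ
    obtain ⟨a, ha, u, hu⟩ := hξ π hπ
    have ha0 : algebraMap A R a ≠ 0 := fun h => ha (by
      rw [FaithfulSMul.algebraMap_injective A R (h.trans (map_zero _).symm)]
      exact dvd_zero π)
    refine ⟨a ^ q, fun h => ha (hπ.dvd_of_dvd_pow h),
      P.π c (algebraMap A R a ^ (q - 1) * u), ?_⟩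
    rw [map_pow, map_pow]
    refine (hf c ξ _ _ ha0 ?_).symm
    obtain ⟨q', rfl⟩ : ∃ q', q = q' + 1 := ⟨q - 1, by omega⟩
    rw [Nat.add_sub_cancel, map_mul, map_pow, pow_succ, mul_assoc, hu]
  have hadd : ∀ c ξ η, f c (ξ + η) = f c ξ + f c η := by
    intro c ξ η
    obtain ⟨x, s, hs, he⟩ := hfrac ξ
    obtain ⟨y, t, ht, he'⟩ := hfrac η
    refine hchk c _ _ (t ^ q * x + s ^ q * y) (s * t) (mul_ne_zero hs ht) ?_ ?_
    · simp only [map_add, map_mul, map_pow, ← he, ← he']; ring
    · rw [map_add, P.map_pow_mul, P.map_pow_mul, map_add, map_mul, map_mul, map_mul, map_pow,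
        map_pow, ← hf c ξ x s hs he, ← hf c η y t ht he']
      ring
  refine ⟨⟨fun c => AddMonoidHom.mk' (fun ξ => ⟨f c ξ.1, hmem c _ ξ.2⟩)
    (fun ξ η => Subtype.ext (hadd c _ _)), ?_, ?_, ?_, ?_⟩⟩
  · intro c r ξ
    refine Subtype.ext ?_
    show f c ((r ^ q * ξ : hull A R) : K) = ((r ^ q : hull A R) : K) * f c ξ.1
    rw [MulMemClass.coe_mul, SubmonoidClass.coe_pow]
    obtain ⟨x, s, hs, he⟩ := hfrac ξ.1
    obtain ⟨y, u, hu, he'⟩ := IsFractionRing.div_surjective (A := R) r.1
    have hu0 : u ≠ 0 := nonZeroDivisors.ne_zero hu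
    have hr : iR u * r.1 = iR y := by
      rw [← he', ← mul_div_assoc, mul_div_cancel_left₀ _
        fun h => hu0 (hiR (by rw [h, map_zero]))]
    refine hchk c _ _ (y ^ q * x) (u * s) (mul_ne_zero hu0 hs) ?_ ?_
    · rw [map_mul, map_mul, map_pow, ← he, ← hr]; ring
    · rw [P.map_pow_mul, map_mul, map_mul, map_pow, ← hr, ← hf c ξ.1 x s hs he]; ring
  · intro c ξ
    refine Subtype.ext ?_
    obtain ⟨x, s, hs, he⟩ := hfrac ξ.1
    exact hchk c _ _ (P.π c x) s hs (hf c ξ.1 x s hs he)
      (by rw [P.idem]; exact hf c ξ.1 x s hs he)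
  · intro c c' hne ξ
    refine Subtype.ext ?_
    obtain ⟨x, s, hs, he⟩ := hfrac ξ.1
    exact hchk c _ _ (P.π c' x) s hs (hf c' ξ.1 x s hs he)
      (by rw [P.orth c c' hne, map_zero]; exact mul_zero _)
  · intro c
    obtain ⟨x, hx⟩ := P.ne_zero c
    refine ⟨algebraMap R _ x, fun h => hx (hiR ?_)⟩
    rw [map_zero]
    exact (hchk c _ (iR (P.π c x)) x 1 one_ne_zero (by rw [map_one, one_pow, one_mul]; rfl) (by simp [iR])).symm.trans
      (congrArg Subtype.val h)

end Vale.Agent.P190
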