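import Mathlib

/-!
First Koszul homology of a finite family, by hand.
-/

namespace Vale.Agent.P190

open LinearMap Submodule

variable {A : Type*} [CommRing A] {M : Type*} [AddCommGroup M] [Module A M]
variable {ι κ : Type*}

/-- `u ↦ ∑ aᵢ uᵢ`. -/
def lin [Fintype ι] (a : ι → A) (M : Type*) [AddCommGroup M] [Module A M] :
    (ι → M) →ₗ[A] M :=
  ∑ i, a i • LinearMap.proj i

@[simp] theorem lin_apply [Fintype ι] (a : ι → A) (u : ι → M) :
    lin a M u = ∑ i, a i • u i := by
  simp [lin, LinearMap.sum_apply]

/-- The Koszul boundary indexed by `(i, j)`. -/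
def bd [DecidableEq ι] (a : ι → A) (M : Type*) [AddCommGroup M] [Module A M] (i j : ι) :
    M →ₗ[A] (ι → M) :=
  LinearMap.single A (fun _ => M) i ∘ₗ (a j • LinearMap.id) -
    LinearMap.single A (fun _ => M) j ∘ₗ (a i • LinearMap.id)

theorem bd_apply [DecidableEq ι] (a : ι → A) (i j : ι) (m : M) :
    bd a M i j m = Pi.single i (a j • m) - Pi.single j (a i • m) := rfl

/-- The Koszul boundaries in degree one. -/
def bdry [DecidableEq ι] (a : ι → A) (M : Type*) [AddCommGroup M] [Module A M] :
    Submodule A (ι → M) :=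
  ⨆ p : ι × ι, LinearMap.range (bd a M p.1 p.2)

theorem bd_mem_bdry [DecidableEq ι] (a : ι → A) (i j : ι) (m : M) :
    Pi.single i (a j • m) - Pi.single j (a i • m) ∈ bdry a M :=
  Submodule.mem_iSup_of_mem (i, j) ⟨m, rfl⟩

theorem lin_single [Fintype ι] [DecidableEq ι] (a : ι → A) (i : ι) (m : M) :
    lin a M (Pi.single i m) = a i • m := by
  rw [lin_apply, Finset.sum_eq_single i] <;> simp +contextual

theorem bdry_le_ker [Fintype ι] [DecidableEq ι] (a : ι → A) :
    bdry a M ≤ LinearMap.ker (lin a M) := by
  refine iSup_le fun p => ?_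
  rintro u ⟨m, rfl⟩
  rw [LinearMap.mem_ker, bd_apply, map_sub, lin_single, lin_single, smul_comm, sub_self]

/-- Every cycle is a boundary. -/
def Exact1 [Fintype ι] [DecidableEq ι] (a : ι → A) (M : Type*) [AddCommGroup M] [Module A M] :
    Prop :=
  LinearMap.ker (lin a M) ≤ bdry a M

/-- First Koszul homology. -/
abbrev H1 [Fintype ι] [DecidableEq ι] (a : ι → A) (M : Type*) [AddCommGroup M] [Module A M] :=
  LinearMap.ker (lin a M) ⧸ (bdry a M).comap (LinearMap.ker (lin a M)).subtype

/-- The class of a cycle. -/
abbrev cls [Fintype ι] [DecidableEq ι] (a : ι → A) (M : Type*) [AddCommGroup M] [Module A M] :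
    LinearMap.ker (lin a M) →ₗ[A] H1 a M :=
  Submodule.mkQ _

theorem cls_eq_zero [Fintype ι] [DecidableEq ι] (a : ι → A) (u : LinearMap.ker (lin a M)) :
    cls a M u = 0 ↔ (u : ι → M) ∈ bdry a M := by
  simp [cls, Submodule.Quotient.mk_eq_zero]

section Option

variable [Fintype ι] [DecidableEq ι] (a : Option ι → A)

theorem lin_option (u : Option ι → M) :
    lin a M u = a none • u none + lin (a ∘ some) M (u ∘ some) := by
  simp [Fintype.sum_option]

/-- Extension by zero in the distinguished coordinate. -/
def ext0 (A : Type*) [CommRing A] (M : Type*) [AddCommGroup M] [Module A M] :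
    (ι → M) →ₗ[A] (Option ι → M) where
  toFun v i := i.elim 0 v
  map_add' v w := by funext i; cases i <;> simp
  map_smul' r v := by funext i; cases i <;> simp

@[simp] theorem ext0_none (v : ι → M) : ext0 A M v none = 0 := rfl

@[simp] theorem ext0_some (v : ι → M) (i : ι) : ext0 A M v (some i) = v i := rfl

theorem ext0_bdry {v : ι → M} (hv : v ∈ bdry (a ∘ some) M) : ext0 A M v ∈ bdry a M := by
  suffices h : bdry (a ∘ some) M ≤ (bdry a M).comap (ext0 A M) from h hv
  refine iSup_le fun p => ?_
  rintro u ⟨m, rfl⟩
  rw [Submodule.mem_comap]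
  refine Submodule.mem_iSup_of_mem (some p.1, some p.2) ⟨m, ?_⟩
  funext i
  cases i <;> simp [bd_apply, Pi.single_apply]

theorem mem_bdry_option (u : Option ι → M) :
    u ∈ bdry a M ↔ ∃ w : ι → M, ∃ v ∈ bdry (a ∘ some) M,
      u none = -lin (a ∘ some) M w ∧ u ∘ some = v + a none • w := by
  constructor
  · intro hu
    unfold bdry at hu
    induction hu using Submodule.iSup_induction' with
    | mem p u hu =>
      obtain ⟨m, rfl⟩ := hu
      obtain ⟨i, j⟩ := p
      rcases i with _ | i <;> rcases j with _ | j
      · exact ⟨0, 0, zero_mem _, by simp [bd_apply], by funext l; simp [bd_apply]⟩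
      · refine ⟨-Pi.single j m, 0, zero_mem _, ?_, ?_⟩
        · rw [map_neg, lin_single, neg_neg]; simp [bd_apply]
        · funext l; simp [bd_apply, Pi.single_apply]
      · refine ⟨Pi.single i m, 0, zero_mem _, ?_, ?_⟩
        · rw [lin_single]; simp [bd_apply]
        · funext l; simp [bd_apply, Pi.single_apply]
      · refine ⟨0, _, bd_mem_bdry (a ∘ some) i j m, by simp [bd_apply], ?_⟩
        funext l; simp [bd_apply, Pi.single_apply]
    | zero => exact ⟨0, 0, zero_mem _, by simp, by funext l; simp⟩
    | add u u' _ _ ih ih' =>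
      obtain ⟨w, v, hv, h1, h2⟩ := ih
      obtain ⟨w', v', hv', h1', h2'⟩ := ih'
      refine ⟨w + w', v + v', add_mem hv hv', ?_, ?_⟩
      · rw [Pi.add_apply, h1, h1', map_add]; abel
      · funext l
        have e := congrFun h2 l
        have e' := congrFun h2' l
        simp only [Function.comp_apply, Pi.add_apply, Pi.smul_apply] at e e' ⊢
        rw [e, e', smul_add]; abel
  · rintro ⟨w, v, hv, h1, h2⟩
    have hu : u = ext0 A M v +
        ∑ i, (Pi.single (some i) (a none • w i) - Pi.single none (a (some i) • w i)) := by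
      funext i
      cases i with
      | none => simp [Pi.single_apply, Finset.sum_apply, h1]
      | some l =>
        have e := congrFun h2 l
        simp only [Function.comp_apply, Pi.add_apply, Pi.smul_apply] at e
        simp [Pi.single_apply, Finset.sum_apply, e]
    rw [hu]
    exact add_mem (ext0_bdry a hv) (Submodule.sum_mem _ fun i _ => bd_mem_bdry a _ _ _)

/-- The colon module at the distinguished element. -/
abbrev colon1 : Submodule A (M ⧸ LinearMap.range (lin (a ∘ some) M)) :=
  LinearMap.ker (LinearMap.lsmul A (M ⧸ LinearMap.range (lin (a ∘ some) M)) (a none))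

/-- The map on cycles to the colon module. -/
def toColon : LinearMap.ker (lin a M) →ₗ[A] colon1 (M := M) a :=
  LinearMap.codRestrict _
    ((LinearMap.range (lin (a ∘ some) M)).mkQ ∘ₗ LinearMap.proj none ∘ₗ
      (LinearMap.ker (lin a M)).subtype)
    (fun u => by
      have hu : lin a M u = 0 := u.2
      rw [lin_option, add_eq_zero_iff_eq_neg] at hu
      rw [LinearMap.mem_ker, LinearMap.lsmul_apply]
      show a none • Submodule.Quotient.mk ((u : Option ι → M) none) = 0
      rw [← Submodule.Quotient.mk_smul, Submodule.Quotient.mk_eq_zero, hu]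
      exact neg_mem (LinearMap.mem_range_self _ _))

/-- Homology of the rest maps to homology of the whole family. -/
def restMap : H1 (a ∘ some) M →ₗ[A] H1 a M :=
  Submodule.mapQ _ _
    (LinearMap.codRestrict _ (ext0 A M ∘ₗ (LinearMap.ker (lin (a ∘ some) M)).subtype) fun v => by
      have hv : lin (a ∘ some) M v = 0 := v.2
      rw [LinearMap.mem_ker, lin_option]
      simpa [Function.comp_def, ext0] using hv)
    (fun v hv => ext0_bdry a hv)

theorem toColon_bdry (u : LinearMap.ker (lin a M)) (hu : (u : Option ι → M) ∈ bdry a M) :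
    toColon a u = 0 := by
  obtain ⟨w, v, _, h1, _⟩ := (mem_bdry_option a _).mp hu
  apply Subtype.ext
  show Submodule.Quotient.mk ((u : Option ι → M) none) = 0
  rw [Submodule.Quotient.mk_eq_zero, h1]
  exact neg_mem (LinearMap.mem_range_self _ _)

/-- Homology of the whole family maps to the colon module. -/
def colonMap : H1 a M →ₗ[A] colon1 (M := M) a :=
  Submodule.liftQ _ (toColon a) fun u hu => toColon_bdry a u hu

theorem colonMap_surjective : Function.Surjective (colonMap (M := M) a) := by
  rintro ⟨x, hx⟩
  obtain ⟨m, rfl⟩ := Submodule.Quotient.mk_surjective _ x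
  rw [LinearMap.mem_ker, LinearMap.lsmul_apply, ← Submodule.Quotient.mk_smul,
    Submodule.Quotient.mk_eq_zero] at hx
  obtain ⟨z, hz⟩ := hx
  refine ⟨cls a M ⟨fun i => i.elim m (fun l => -z l), ?_⟩, rfl⟩
  rw [LinearMap.mem_ker, lin_option]
  show a none • m + lin (a ∘ some) M (-z) = 0
  rw [map_neg, hz, add_neg_cancel]

theorem colonMap_exact : Function.Exact (restMap (M := M) a) (colonMap (M := M) a) := by
  intro h
  obtain ⟨u, rfl⟩ := Submodule.Quotient.mk_surjective _ h
  constructor
  · intro hu
    have hu' : (LinearMap.range (lin (a ∘ some) M)).mkQ ((u : Option ι → M) none) = 0 :=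
      congrArg Subtype.val hu
    rw [Submodule.mkQ_apply, Submodule.Quotient.mk_eq_zero] at hu'
    obtain ⟨z, hz⟩ := hu'
    have huc : lin a M u = 0 := u.2
    rw [lin_option] at huc
    refine ⟨cls (a ∘ some) M ⟨(u : Option ι → M) ∘ some + a none • z, ?_⟩, ?_⟩
    · rw [LinearMap.mem_ker, map_add, map_smul, hz, add_comm, huc]
    · refine (Submodule.Quotient.eq _).mpr ?_
      rw [Submodule.mem_comap, mem_bdry_option]
      refine ⟨z, 0, zero_mem _, ?_, ?_⟩
      · show (0 : M) - (u : Option ι → M) none = -lin (a ∘ some) M z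
        rw [hz]; simp
      · funext l
        show ((u : Option ι → M) (some l) + a none • z l) - (u : Option ι → M) (some l) = _
        simp
  · rintro ⟨v, hv⟩
    rw [← hv]
    obtain ⟨v, rfl⟩ := Submodule.Quotient.mk_surjective _ v
    apply Subtype.ext
    show Submodule.Quotient.mk (ext0 A M (v : ι → M) none) = 0
    simp

theorem restMap_injective (h : ∀ x : H1 (a ∘ some) M, a none • x = 0) :
    Function.Injective (restMap (M := M) a) := by
  refine (injective_iff_map_eq_zero _).mpr fun x hx => ?_
  obtain ⟨v, rfl⟩ := Submodule.Quotient.mk_surjective _ x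
  have hv : ext0 A M (v : ι → M) ∈ bdry a M :=
    (cls_eq_zero a ⟨_, _⟩).mp hx
  obtain ⟨w, v', hv', h1, h2⟩ := (mem_bdry_option a _).mp hv
  have hw : lin (a ∘ some) M w = 0 := by
    simpa using h1.symm
  have h0 := h (cls (a ∘ some) M ⟨w, hw⟩)
  rw [← map_smul, cls_eq_zero] at h0
  refine (Submodule.Quotient.mk_eq_zero _).mpr ?_
  show (v : ι → M) ∈ bdry (a ∘ some) M
  have e : (v : ι → M) = v' + a none • w := by
    funext l; exact congrFun h2 l
  rw [e]
  exact add_mem hv' h0

end Option

section Length

variable (k : Type*) [CommRing k] [Algebra k A] [Module k M] [IsScalarTower k A M]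

theorem length_option_le [Fintype ι] [DecidableEq ι] (a : Option ι → A) :
    Module.length k (H1 a M) ≤
      Module.length k (H1 (a ∘ some) M) + Module.length k (colon1 (M := M) a) := by
  have hex : Function.Exact (LinearMap.range ((restMap (M := M) a).restrictScalars k)).subtype
      ((colonMap (M := M) a).restrictScalars k) := by
    intro x
    constructor
    · intro hx
      obtain ⟨y, hy⟩ := ((colonMap_exact a) x).mp hx
      exact ⟨⟨x, y, hy⟩, rfl⟩
    · rintro ⟨⟨_, y, rfl⟩, rfl⟩
      exact ((colonMap_exact a) _).mpr ⟨y, rfl⟩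
  rw [Module.length_eq_add_of_exact _ _ (Submodule.subtype_injective _)
    (colonMap_surjective a) hex]
  exact add_le_add (Module.length_le_of_surjective _
    ((restMap (M := M) a).restrictScalars k).surjective_rangeRestrict) le_rfl

theorem length_option_eq [Fintype ι] [DecidableEq ι] (a : Option ι → A)
    (h : ∀ x : H1 (a ∘ some) M, a none • x = 0) :
    Module.length k (H1 a M) =
      Module.length k (H1 (a ∘ some) M) + Module.length k (colon1 (M := M) a) :=
  Module.length_eq_add_of_exact ((restMap (M := M) a).restrictScalars k)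
    ((colonMap (M := M) a).restrictScalars k) (restMap_injective a h) (colonMap_surjective a)
    (colonMap_exact a)

end Length

end Vale.Agent.P190
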