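import Vale.Agent.P190.Frob
import Vale.Agent.P190.Completion

/-!
Small Cohen–Macaulay modules from many Frobenius summands.
-/

namespace Vale.Agent.P190

open MvPolynomial IsLocalRing

/-- A regular sequence on a finite module bounds the dimension from below. -/
theorem length_le_ringKrullDim {S : Type*} [CommRing S] [IsLocalRing S] [IsNoetherianRing S]
    {M : Type*} [AddCommGroup M] [Module S M] [Module.Finite S M] (rs : List S)
    (h : RingTheory.Sequence.IsRegular M rs) : (rs.length : WithBot ℕ∞) ≤ ringKrullDim S := by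
  have h1 := Module.supportDim_add_length_eq_supportDim_of_isRegular rs h
  have : Nontrivial (M ⧸ Ideal.ofList rs • (⊤ : Submodule S M)) :=
    Submodule.Quotient.nontrivial_iff.mpr h.2.symm
  refine le_trans ?_ ((h1.le).trans (Module.supportDim_le_ringKrullDim S M))
  have h0 : (0 : WithBot ℕ∞) ≤ Module.supportDim S (M ⧸ Ideal.ofList rs • (⊤ : Submodule S M)) := by
    exact Order.krullDim_nonneg_iff.mpr (Set.Nonempty.to_subtype (Module.nonempty_support_of_nontrivial))
  exact le_add_of_nonneg_left h0

theorem idealOfVars_isMaximal (k : Type*) [Field k] (σ : Type*) :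
    (idealOfVars σ k).IsMaximal := by
  have h : idealOfVars σ k = RingHom.ker (constantCoeff : MvPolynomial σ k →+* k) := by
    apply le_antisymm
    · rw [idealOfVars, Ideal.span_le]
      rintro _ ⟨i, rfl⟩
      simp
    · intro f hf
      rw [idealOfVars, ← Set.image_univ, mem_ideal_span_X_image]
      intro v hv
      by_contra hcon
      push Not at hcon
      have : v = 0 := Finsupp.ext fun i => hcon i (Set.mem_univ i)
      subst this
      exact MvPolynomial.mem_support_iff.mp hv (by simpa [constantCoeff_eq] using hf)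
  rw [h]
  exact RingHom.ker_isMaximal_of_surjective _ fun a => ⟨C a, constantCoeff_C _ a⟩

/-- Exactness does not depend on the ring through which the multipliers act. -/
theorem exact_restrict {R R₂ M : Type*} [CommRing R] [CommRing R₂] [Algebra R R₂] [AddCommGroup M]
    [Module R₂ M] [Module R M] [IsScalarTower R R₂ M] {ι : Type*} [Fintype ι] [DecidableEq ι]
    (a : ι → R) (h : Exact1 (fun i => algebraMap R R₂ (a i)) M) : Exact1 a M := by
  intro v hv
  have hv' : lin (fun i => algebraMap R R₂ (a i)) M v = 0 := by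
    rw [LinearMap.mem_ker, lin_apply] at hv
    rw [lin_apply]
    simpa only [algebraMap_smul] using hv
  have h2 := h (LinearMap.mem_ker.mpr hv')
  clear hv hv'
  unfold bdry at h2
  induction h2 using Submodule.iSup_induction' with
  | mem q f hf =>
    obtain ⟨z, rfl⟩ := hf
    have := bd_mem_bdry (M := M) a q.1 q.2 z
    simpa only [bd_apply, algebraMap_smul] using this
  | zero => exact zero_mem _
  | add f f' _ _ hf hf' => exact add_mem hf hf'

variable {p : ℕ} [hp : Fact p.Prime] {k : Type} [Field k] [CharP k p] [PerfectRing k p]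
variable {R : Type} [CommRing R] [IsDomain R] [Algebra k R]
variable {R₂ : Type} [CommRing R₂] [IsDomain R₂] [Algebra k R₂] [Algebra R R₂] [Module.Finite R R₂]
  [FaithfulSMul R R₂]
variable {d : ℕ} [Algebra (MvPolynomial (Fin d) k) R] [IsScalarTower k (MvPolynomial (Fin d) k) R]
  [Module.Finite (MvPolynomial (Fin d) k) R] [IsNoetherianRing R]
variable [Algebra (MvPolynomial (Fin d) k) R₂] [IsScalarTower k (MvPolynomial (Fin d) k) R₂]
  [IsScalarTower (MvPolynomial (Fin d) k) R R₂]

/-- Many Frobenius summands and few non-factoring parameters give small Cohen–Macaulay modules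
over the local ring and over its completion. -/
theorem exists_small_CM (r D : ℕ)
    (hproj : ∀ e : ℕ, ∃ (I : Type) (_ : Fintype I), Nonempty (Projections R₂ (p ^ e) I) ∧
      (p ^ e) ^ r ≤ Fintype.card I * D)
    (S0 : Finset (Fin d)) (hS : ∀ i ∈ S0, Factors R₂ (X i : MvPolynomial (Fin d) k))
    (hcard : S0ᶜ.card < r) (m : Ideal R) [m.IsMaximal]
    (hx : ∀ i, algebraMap (MvPolynomial (Fin d) k) R (X i) ∈ m) :
    ringKrullDim (Localization.AtPrime m) = d ∧
    IsNoetherianRing (AdicCompletion (maximalIdeal (Localization.AtPrime m))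
      (Localization.AtPrime m)) ∧
    ringKrullDim (AdicCompletion (maximalIdeal (Localization.AtPrime m))
      (Localization.AtPrime m)) = d ∧
    (∃ (M : Type) (_ : AddCommGroup M) (_ : Module (Localization.AtPrime m) M),
      Module.Finite (Localization.AtPrime m) M ∧
      ∃ rs : List (Localization.AtPrime m), rs.length = d ∧
        (∀ x ∈ rs, x ∈ maximalIdeal (Localization.AtPrime m)) ∧
        RingTheory.Sequence.IsRegular M rs) ∧
    (∃ (M : Type) (_ : AddCommGroup M) (_ : Module (AdicCompletion
        (maximalIdeal (Localization.AtPrime m)) (Localization.AtPrime m)) M),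
      Module.Finite (AdicCompletion
        (maximalIdeal (Localization.AtPrime m)) (Localization.AtPrime m)) M ∧
      ∃ rs : List (AdicCompletion
        (maximalIdeal (Localization.AtPrime m)) (Localization.AtPrime m)), rs.length = d ∧
        (∀ x ∈ rs, x ∈ maximalIdeal (AdicCompletion
          (maximalIdeal (Localization.AtPrime m)) (Localization.AtPrime m))) ∧
        RingTheory.Sequence.IsRegular M rs) := by
  classical
  have : CharP R₂ p := charP_of_injective_algebraMap (algebraMap k R₂).injective p
  have : ExpChar R₂ p := ExpChar.prime hp.out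
  have : Module.Finite (MvPolynomial (Fin d) k) R₂ := Module.Finite.trans R R₂
  obtain ⟨C, hC⟩ := length_frobenius_le (V := R₂) S0 hS
  set e := C * D + 1
  set q := p ^ e with hq
  have hqe : C * D < q := lt_trans (Nat.lt_succ_self _) (Nat.lt_pow_self hp.out.one_lt)
  obtain ⟨I, _, ⟨P⟩, hI⟩ := hproj e
  have hlt : Module.length k (H1 (xpow k (id : Fin d → Fin d) fun _ => p ^ e) R₂) <
      (Fintype.card I : ℕ∞) := by
    refine lt_of_le_of_lt (hC q) ?_
    rw [← Nat.cast_mul, Nat.cast_lt]
    by_contra hcon
    have h1 : Fintype.card I * D ≤ C * q ^ S0ᶜ.card * D := Nat.mul_le_mul_right D (not_lt.mp hcon)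
    have h2 : C * q ^ S0ᶜ.card * D < q ^ (S0ᶜ.card + 1) := by
      rw [pow_succ', mul_right_comm]
      exact Nat.mul_lt_mul_of_pos_right hqe (pow_pos (lt_of_le_of_lt (Nat.zero_le _) hqe) _)
    have h3 : q ^ (S0ᶜ.card + 1) ≤ q ^ r :=
      Nat.pow_le_pow_right (lt_of_le_of_lt (Nat.zero_le _) hqe) hcard
    exact absurd (hI.trans h1) (not_le.mpr (h2.trans_le h3))
  obtain ⟨c, hc⟩ := P.exists_exact (k := k) (σ := Fin d) hlt
  have : IsNoetherianRing R₂ := IsNoetherianRing.of_finite R R₂
  have : Module.Finite R₂ (Tw R₂ p e) := finite_tw (k := k) (σ := Fin d)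
  have : IsNoetherian R₂ (Tw R₂ p e) := isNoetherian_of_isNoetherianRing_of_finite R₂ _
  have : Module.Finite R₂ (P.N c) := Module.IsNoetherian.finite R₂ _
  let _ : Module R (P.N c) := Module.compHom _ (algebraMap R R₂)
  have : IsScalarTower R R₂ (P.N c) := IsScalarTower.of_algebraMap_smul fun _ _ => rfl
  have : Module.Finite R (P.N c) := Module.Finite.trans R₂ _
  replace hc : Exact1 (xR k (Fin d) R) (P.N c) := by
    refine exact_restrict (R₂ := R₂) _ ?_
    have e2 : (fun i => algebraMap R R₂ (xR k (Fin d) R i)) = xR k (Fin d) R₂ :=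
      funext fun i => (IsScalarTower.algebraMap_apply (MvPolynomial (Fin d) k) R R₂ (X i)).symm
    rw [e2]
    exact hc
  set S := Localization.AtPrime m
  let M := LocalizedModule m.primeCompl (P.N c)
  have hloc : Exact1 (fun i => algebraMap R S (xR k (Fin d) R i)) M :=
    exact_localization m.primeCompl _ hc
  have hmem : ∀ i, algebraMap R S (xR k (Fin d) R i) ∈ maximalIdeal S := fun i =>
    (IsLocalization.AtPrime.to_map_mem_maximal_iff S m _).mpr (hx i)
  obtain ⟨rs, hlen, hrs, hweak⟩ := exists_regular_of_exact (Fin d) _ hmem hloc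
  rw [Fintype.card_fin] at hlen
  have hrsm : ∀ x ∈ rs, x ∈ maximalIdeal S := fun x hx' => by
    obtain ⟨i, rfl⟩ := (hrs x).mp hx'
    exact hmem i
  have : Nontrivial M := by
    have := P.nontrivial c
    obtain ⟨z, hz⟩ := exists_ne (0 : P.N c)
    refine nontrivial_of_ne (LocalizedModule.mkLinearMap m.primeCompl _ z) 0 fun h => hz ?_
    obtain ⟨u, hu⟩ := (IsLocalizedModule.eq_zero_iff m.primeCompl
      (LocalizedModule.mkLinearMap m.primeCompl _)).mp h
    have h0 : unTw ((algebraMap R R₂ (u : R) • z : P.N c) : Tw R₂ p e) = 0 := by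
      rw [algebraMap_smul, show (u : R) • z = 0 from hu]
      exact unTw_zero
    rw [Submodule.coe_smul, unTw_smul, mul_eq_zero] at h0
    refine Subtype.ext (unTw_injective (h0.resolve_left (pow_ne_zero _ ?_)))
    exact (map_ne_zero_iff _ (FaithfulSMul.algebraMap_injective R R₂)).mpr
      (nonZeroDivisors.ne_zero (m.primeCompl_le_nonZeroDivisors u.2))
  have hreg : RingTheory.Sequence.IsRegular M rs :=
    (IsLocalRing.isRegular_iff_isWeaklyRegular_of_subset_maximalIdeal hrsm).mpr hweak
  have hge : (d : WithBot ℕ∞) ≤ ringKrullDim S := hlen ▸ length_le_ringKrullDim rs hreg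
  -- the parameters generate an ideal primary to the maximal ideal
  let φ : MvPolynomial (Fin d) k →+* S :=
    (algebraMap R S).comp (algebraMap (MvPolynomial (Fin d) k) R)
  have hrad : maximalIdeal S ≤ ((idealOfVars (Fin d) k).map φ).radical := by
    rw [Ideal.radical_eq_sInf, le_sInf_iff]
    rintro Q ⟨hQ, hQp⟩
    have : Q.IsPrime := hQp
    set Q' := Q.comap (algebraMap R S)
    have hQ'A : idealOfVars (Fin d) k = Q'.comap (algebraMap (MvPolynomial (Fin d) k) R) := by
      refine (idealOfVars_isMaximal k (Fin d)).eq_of_le (Ideal.IsPrime.ne_top inferInstance) ?_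
      rw [Ideal.comap_comap]
      exact Ideal.map_le_iff_le_comap.mp hQ
    have : Q'.IsMaximal := by
      have := hQ'A ▸ idealOfVars_isMaximal k (Fin d)
      exact Ideal.isMaximal_of_isIntegral_of_isMaximal_comap Q' this
    have hle : Q' ≤ m := by
      rw [← IsLocalization.AtPrime.under_maximalIdeal S m]
      exact Ideal.comap_mono (le_maximalIdeal hQp.ne_top)
    have heq : Q' = m := ‹Q'.IsMaximal›.eq_of_le (Ideal.IsPrime.ne_top inferInstance) hle
    exact le_of_eq_of_le (((congrArg (Ideal.map (algebraMap R S)) heq).trans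
      Localization.AtPrime.map_eq_maximalIdeal).symm) Ideal.map_comap_le
  obtain ⟨N, hN⟩ := Ideal.exists_pow_le_of_le_radical_of_fg hrad (IsNoetherian.noetherian _)
  obtain ⟨n, g, hg⟩ := Module.Finite.exists_fin (R := MvPolynomial (Fin d) k) (M := R)
  have hgen : ∀ s : S, ∃ c : Fin n → MvPolynomial (Fin d) k,
      s - ∑ i, φ (c i) * algebraMap R S (g i) ∈ (idealOfVars (Fin d) k).map φ := by
    intro s
    obtain ⟨a, t, rfl⟩ := IsLocalization.exists_mk'_eq m.primeCompl s
    have htop : Ideal.span {(t : R)} ⊔ m ^ N = ⊤ := by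
      refine Ideal.sup_pow_eq_top ?_
      by_contra hne
      exact t.2 ((Ideal.span_singleton_le_iff_mem m).mp (le_sup_left.trans
        (le_of_eq (‹m.IsMaximal›.eq_of_le hne le_sup_right).symm)))
    obtain ⟨y, hy, z, hz, hyz⟩ := Submodule.mem_sup.mp (htop ▸ Submodule.mem_top : (1 : R) ∈ _)
    obtain ⟨u, rfl⟩ := Ideal.mem_span_singleton'.mp hy
    obtain ⟨co, hco⟩ := (Submodule.mem_span_range_iff_exists_fun _).mp
      (hg ▸ Submodule.mem_top (x := a * u))
    refine ⟨co, ?_⟩
    have hsum : ∑ i, φ (co i) * algebraMap R S (g i) = algebraMap R S (a * u) := by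
      rw [← hco, map_sum]
      simp [φ, Algebra.smul_def]
    have hst : IsLocalization.mk' S a t * algebraMap R S t = algebraMap R S a :=
      IsLocalization.mk'_spec S a t
    have hyz' := congrArg (algebraMap R S) hyz
    rw [map_add, map_mul, map_one] at hyz'
    have : IsLocalization.mk' S a t - algebraMap R S (a * u) =
        IsLocalization.mk' S a t * algebraMap R S z := by
      rw [map_mul, ← hst]
      linear_combination (-(IsLocalization.mk' S a t)) * hyz'
    rw [hsum, this]
    refine Ideal.mul_mem_left _ _ (hN ?_)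
    rw [← Localization.AtPrime.map_eq_maximalIdeal, ← Ideal.map_pow]
    exact Ideal.mem_map_of_mem _ hz
  have hle : ringKrullDim S ≤ (d : WithBot ℕ∞) := by
    rw [← IsLocalRing.maximalIdeal_height_eq_ringKrullDim]
    have hspan : (idealOfVars (Fin d) k).map φ =
        Ideal.span ((Finset.univ.image fun i => φ (X i) : Finset S) : Set S) := by
      rw [idealOfVars, Ideal.map_span, ← Set.range_comp, Finset.coe_image, Finset.coe_univ,
        Set.image_univ]
      rfl
    have hmin : maximalIdeal S ∈
        (Ideal.span ((Finset.univ.image fun i => φ (X i) : Finset S) : Set S)).minimalPrimes := by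
      rw [← hspan]
      refine ⟨⟨inferInstance, ?_⟩, fun Q hQ _ => hrad.trans (hQ.1.radical_le_iff.mpr hQ.2)⟩
      rw [Ideal.map_le_iff_le_comap, idealOfVars, Ideal.span_le]
      rintro _ ⟨i, rfl⟩
      exact hmem i
    refine (WithBot.coe_le_coe.mpr ((Ideal.height_le_card_of_mem_minimalPrimes_span_finset
      hmin).trans (Nat.cast_le.mpr (Finset.card_image_le.trans
        (by simp : (Finset.univ : Finset (Fin d)).card ≤ d))))).trans le_rfl
  obtain ⟨hnoe, hdim'⟩ := completion_noetherian φ hmem N n hN _ hgen
  set S' := AdicCompletion (maximalIdeal S) S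
  have : Module.FaithfullyFlat S S' := Module.FaithfullyFlat.of_flat_of_isLocalHom
  have hreg' : RingTheory.Sequence.IsRegular (TensorProduct S S' M) (rs.map (algebraMap S S')) :=
    hreg.of_faithfullyFlat_of_isBaseChange (TensorProduct.isBaseChange S M S')
  have hge' := length_le_ringKrullDim _ hreg'
  rw [List.length_map, hlen] at hge'
  refine ⟨le_antisymm hle hge, hnoe, le_antisymm hdim' hge',
    ⟨M, inferInstance, inferInstance, inferInstance, rs, hlen, hrsm, hreg⟩,
    ⟨TensorProduct S S' M, inferInstance, inferInstance, inferInstance, rs.map (algebraMap S S'),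
      by rw [List.length_map, hlen], fun x hx' => ?_, hreg'⟩⟩
  obtain ⟨y, hy, rfl⟩ := List.mem_map.mp hx'
  rw [AdicCompletion.maximalIdeal_eq_map]
  exact Ideal.mem_map_of_mem _ (hrsm y hy)

end Vale.Agent.P190
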